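import Vale.Agent.P006.V2.GenMS

/-!
P006, block T1A: the errors for general frequencies satisfy the general recursion.
-/

namespace Vale.Agent.P006.V2

open Vale.Agent.P006
open scoped ENNReal BigOperators
open Filter Topology

/-- local relations of the residues, all exponents -/
structure Rho3 (ρ : O → ℂ) : Prop extends Rho ρ where
  mul_cube : ∀ (s p : O) (v : ℕ), Primary s → PrP p → ¬ p ∣ s → ρ (s * p ^ (v + 3)) = ρ (s * p ^ v)

variable {W : ℝ → ℂ} {M B : ℝ} {ρ : O → ℂ} {c : ℂ}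

theorem Rho3.mod (hρ : Rho3 ρ) {s p : O} (hs0 : Primary s) (hp : PrP p) (hs : ¬ p ∣ s) (v : ℕ) :
    ρ (s * p ^ v) = ρ (s * p ^ (v % 3)) := by
  induction v using Nat.strong_induction_on with
  | _ v ih =>
    by_cases hv : v < 3
    · rw [Nat.mod_eq_of_lt hv]
    · obtain ⟨w, rfl⟩ : ∃ w, v = w + 3 := ⟨v - 3, by omega⟩
      rw [hρ.mul_cube s p w hs0 hp hs, ih w (by omega), Nat.add_mod_right]

theorem norm_rho_le3 (hρ : Rho3 ρ) : ∀ m, Primary m → ‖ρ m‖ ≤ ‖ρ 1‖ := by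
  apply Primary.induction_pow
  · exact le_rfl
  · intro r p v hr hp hpr _ ih
    rw [hρ.mod hr hp hpr]
    have h3 : v % 3 < 3 := Nat.mod_lt _ (by norm_num)
    have h4 : v % 3 = 0 ∨ v % 3 = 1 ∨ v % 3 = 2 := by omega
    rcases h4 with h | h | h
    · rw [h, pow_zero, mul_one]; exact ih
    · rw [h, pow_one, hρ.mul_prime r p hr hp hpr, norm_mul, norm_mul, RCLike.norm_conj,
        norm_gt_prime hp hpr, mul_one, Complex.norm_real, Real.norm_of_nonneg (by positivity)]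
      have h1 : (1 : ℝ) ≤ N p := by exact_mod_cast (le_trans (by norm_num) hp.two_le)
      have h2 : (N p : ℝ) ^ (-(1 / 6) : ℝ) ≤ 1 :=
        Real.rpow_le_one_of_one_le_of_nonpos h1 (by norm_num)
      calc (N p : ℝ) ^ (-(1 / 6) : ℝ) * ‖ρ r‖ ≤ 1 * ‖ρ r‖ :=
            mul_le_mul_of_nonneg_right h2 (norm_nonneg _)
        _ ≤ ‖ρ 1‖ := by rw [one_mul]; exact ih
    · rw [h, hρ.mul_sq r p hr hp hpr, norm_zero]; exact norm_nonneg _

theorem ok_pow {p a D : O} {v : ℕ} (hv : 1 ≤ v) : ok (D * p ^ v) a ↔ ok (D * p) a := by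
  rw [ok, ok, IsCoprime.mul_right_iff, IsCoprime.mul_right_iff,
    IsCoprime.pow_right_iff (by omega)]

theorem SA_ok (W : ℝ → ℂ) (m : O) {p D : O} {v : ℕ} (hv : 1 ≤ v) (Y : ℝ) :
    SA W m (D * p ^ v) Y = SA W m (D * p) Y := by
  classical
  refine tsum_congr fun a => ?_
  rw [sm, sm, ok_pow hv]

theorem SA_mod (W : ℝ → ℂ) {s D p : O} (hp : PrP p) (Y : ℝ) (v : ℕ) :
    SA W (s * p ^ v) (D * p) Y = SA W (s * p ^ (v % 3)) (D * p) Y := by
  induction v using Nat.strong_induction_on with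
  | _ v ih =>
    by_cases hv : v < 3
    · rw [Nat.mod_eq_of_lt hv]
    · obtain ⟨w, rfl⟩ : ∃ w, v = w + 3 := ⟨v - 3, by omega⟩
      rw [pow_add, ← mul_assoc, SA_cube W hp Y, ih w (by omega), Nat.add_mod_right]

theorem hfac_mul_pow {D p : O} (hD : D ≠ 0) (hp : PrP p) {v : ℕ} (hv : 1 ≤ v) :
    hfac (D * p ^ v) = hfac (D * p) := by
  classical
  have h1 : pdv (D * p ^ v) = pdv (D * p) := by
    ext q
    rw [mem_pdv (mul_ne_zero hD (pow_ne_zero _ hp.ne_zero)), mem_pdv (mul_ne_zero hD hp.ne_zero)]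
    constructor
    · rintro ⟨h1, h2, h3⟩
      refine ⟨h1, h2, ?_⟩
      rcases h2.dvd_or_dvd h3 with h4 | h4
      · exact h4.mul_right _
      · exact (h2.dvd_of_dvd_pow h4).mul_left _
    · rintro ⟨h1, h2, h3⟩
      refine ⟨h1, h2, ?_⟩
      rcases h2.dvd_or_dvd h3 with h4 | h4
      · exact h4.mul_right _
      · exact (h4.trans (dvd_pow_self p (by omega))).mul_left _
  rw [hfac, hfac, h1]

theorem Er_mod (hρ : Rho3 ρ) (c : ℂ) {s D p : O} (hs0 : Primary s) (hD0 : Primary D)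
    (hp : PrP p) (hs : ¬ p ∣ s) {v : ℕ} (hv : 1 ≤ v) (Y : ℝ) :
    Er W ρ c (s * p ^ v) (D * p ^ v) Y = Er W ρ c (s * p ^ (v % 3)) (D * p) Y := by
  rw [Er, Er, mn, mn, SA_ok W _ hv, SA_mod W hp Y v, hρ.mod hs0 hp hs v,
    hfac_mul_pow hD0.ne_zero hp hv]

/-- iteration of the relation at `p²` -/
theorem Er_sq_iter (hW : Wt W M B) (hρ : Rho ρ) {s D p : O} (hs0 : Primary s) (hp : PrP p)
    (hs : ¬ p ∣ s) (hD : ¬ p ∣ D) {Y : ℝ} (hY : 0 < Y) (J : ℕ) :
    ‖Er W ρ c (s * p ^ 2) (D * p) Y‖ ≤ ∑ j ∈ Finset.range J, (√(N p)) ^ j *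
        ‖Er W ρ c (s * p ^ 2) D (Y / (N p : ℝ) ^ (3 * j))‖ +
      (√(N p)) ^ J * ‖Er W ρ c (s * p ^ 2) (D * p) (Y / (N p : ℝ) ^ (3 * J))‖ := by
  have hN := Np_pos hp
  induction J with
  | zero => simp
  | succ J ih =>
    have h1 := Er_sq (c := c) hW hρ hs0 hp hs hD (Y := Y / (N p : ℝ) ^ (3 * J)) (by positivity)
    have h3 : Y / (N p : ℝ) ^ (3 * J) / (N p : ℝ) ^ 3 = Y / (N p : ℝ) ^ (3 * (J + 1)) := by
      rw [div_div, ← pow_add]; congr 2
    rw [h3] at h1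
    have h2 : ‖Er W ρ c (s * p ^ 2) (D * p) (Y / (N p : ℝ) ^ (3 * J))‖ ≤
        ‖Er W ρ c (s * p ^ 2) D (Y / (N p : ℝ) ^ (3 * J))‖ +
          √(N p) * ‖Er W ρ c (s * p ^ 2) (D * p) (Y / (N p : ℝ) ^ (3 * (J + 1)))‖ := by
      have h4 : Er W ρ c (s * p ^ 2) (D * p) (Y / (N p : ℝ) ^ (3 * J)) =
          Er W ρ c (s * p ^ 2) D (Y / (N p : ℝ) ^ (3 * J)) +
          √(N p : ℝ) * Er W ρ c (s * p ^ 2) (D * p) (Y / (N p : ℝ) ^ (3 * (J + 1))) := by
        rw [h1]; ring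
      calc _ = ‖Er W ρ c (s * p ^ 2) D (Y / (N p : ℝ) ^ (3 * J)) +
          √(N p : ℝ) * Er W ρ c (s * p ^ 2) (D * p) (Y / (N p : ℝ) ^ (3 * (J + 1)))‖ := by
            rw [← h4]
        _ ≤ _ := (norm_add_le _ _).trans (le_of_eq (by
            rw [norm_mul, Complex.norm_real, Real.norm_of_nonneg (Real.sqrt_nonneg _)]))
    have h4 : (0 : ℝ) ≤ (√(N p)) ^ J := by positivity
    have h5 := mul_le_mul_of_nonneg_left h2 h4
    rw [Finset.sum_range_succ]
    refine ih.trans ?_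
    rw [add_assoc]
    refine add_le_add le_rfl (h5.trans (le_of_eq ?_))
    ring

/-- passing to the limit in an iterated inequality -/
theorem tsum_of_iter {p : O} (hp : PrP p) {G : ℝ → ℝ} (hG : ∀ Y, 0 ≤ G Y)
    (small : ∃ C : ℝ, ∀ Y : ℝ, 0 < Y → Y ≤ 1 → G Y ≤ C * Y ^ (5 / 6 : ℝ))
    {Y : ℝ} (hY : 0 < Y) {g : ℕ → ℝ} (hg : ∀ j, 0 ≤ g j) {x : ℝ}
    (h : ∀ J, x ≤ ∑ j ∈ Finset.range J, g j + (√(N p)) ^ J * G (Y / (N p : ℝ) ^ (3 * J))) :
    ENNReal.ofReal x ≤ ∑' j, ENNReal.ofReal (g j) := by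
  have hN : (0 : ℝ) < N p := by exact_mod_cast N_pos hp.ne_zero
  have hN2 : (2 : ℝ) ≤ N p := by exact_mod_cast hp.two_le
  obtain ⟨C, hC⟩ := small
  set T : ℝ≥0∞ := ∑' j : ℕ, ENNReal.ofReal (g j) with hT
  have hrem : Tendsto (fun J : ℕ => (√(N p)) ^ J * G (Y / (N p : ℝ) ^ (3 * J))) atTop (𝓝 0) := by
    have hev : ∀ᶠ J : ℕ in atTop, (√(N p)) ^ J * G (Y / (N p : ℝ) ^ (3 * J)) ≤
        |C| * Y ^ (5 / 6 : ℝ) * ((1 : ℝ) / 2) ^ J := by
      have h1 : ∀ᶠ J : ℕ in atTop, Y ≤ (N p : ℝ) ^ (3 * J) := by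
        have : Tendsto (fun J : ℕ => (N p : ℝ) ^ (3 * J)) atTop atTop := by
          simp_rw [pow_mul]
          apply tendsto_pow_atTop_atTop_of_one_lt
          have : (1 : ℝ) < N p := by linarith
          exact one_lt_pow₀ this (by norm_num)
        exact this.eventually_ge_atTop Y
      filter_upwards [h1] with J hJ
      have hpos : (0 : ℝ) < (N p : ℝ) ^ (3 * J) := by positivity
      have h2 := hC (Y / (N p : ℝ) ^ (3 * J)) (by positivity) ((div_le_one hpos).2 hJ)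
      have h3 : (Y / (N p : ℝ) ^ (3 * J)) ^ (5 / 6 : ℝ) =
          Y ^ (5 / 6 : ℝ) * ((N p : ℝ) ^ (-(5 / 2) : ℝ)) ^ J := by
        rw [Real.div_rpow hY.le hpos.le, div_eq_mul_inv]
        congr 1
        rw [← Real.rpow_natCast (N p : ℝ) (3 * J), ← Real.rpow_mul hN.le, ← Real.rpow_neg hN.le,
          ← Real.rpow_natCast ((N p : ℝ) ^ (-(5 / 2) : ℝ)) J, ← Real.rpow_mul hN.le]
        congr 1
        push_cast
        ring
      have h4 : (√(N p)) ^ J * ((N p : ℝ) ^ (-(5 / 2) : ℝ)) ^ J = ((N p : ℝ) ^ (-2 : ℝ)) ^ J := by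
        rw [← mul_pow, Real.sqrt_eq_rpow, ← Real.rpow_add hN]
        norm_num
      have h5 : (N p : ℝ) ^ (-2 : ℝ) ≤ 1 / 2 := by
        rw [Real.rpow_neg hN.le, one_div]
        apply inv_anti₀ (by norm_num)
        rw [Real.rpow_two]
        nlinarith
      calc (√(N p)) ^ J * G (Y / (N p : ℝ) ^ (3 * J))
          ≤ (√(N p)) ^ J * (C * (Y / (N p : ℝ) ^ (3 * J)) ^ (5 / 6 : ℝ)) :=
            mul_le_mul_of_nonneg_left h2 (by positivity)
        _ = C * Y ^ (5 / 6 : ℝ) * ((√(N p)) ^ J * ((N p : ℝ) ^ (-(5 / 2) : ℝ)) ^ J) := by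
            rw [h3]; ring
        _ = C * Y ^ (5 / 6 : ℝ) * ((N p : ℝ) ^ (-2 : ℝ)) ^ J := by rw [h4]
        _ ≤ |C| * Y ^ (5 / 6 : ℝ) * ((1 : ℝ) / 2) ^ J := by
            have h6 : ((N p : ℝ) ^ (-2 : ℝ)) ^ J ≤ ((1 : ℝ) / 2) ^ J :=
              pow_le_pow_left₀ (by positivity) h5 J
            have h7 : 0 ≤ ((N p : ℝ) ^ (-2 : ℝ)) ^ J := by positivity
            have h8 : 0 ≤ Y ^ (5 / 6 : ℝ) := by positivity
            apply mul_le_mul (mul_le_mul_of_nonneg_right (le_abs_self C) h8) h6 h7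
            positivity
    have hlim : Tendsto (fun J : ℕ => |C| * Y ^ (5 / 6 : ℝ) * ((1 : ℝ) / 2) ^ J) atTop (𝓝 0) := by
      have := (tendsto_pow_atTop_nhds_zero_of_lt_one (r := (1 : ℝ) / 2) (by norm_num)
        (by norm_num)).const_mul (|C| * Y ^ (5 / 6 : ℝ))
      simpa using this
    refine squeeze_zero' (Eventually.of_forall fun J => ?_) hev hlim
    exact mul_nonneg (by positivity) (hG _)
  have hb : ∀ J : ℕ, ENNReal.ofReal x ≤ T +
      ENNReal.ofReal ((√(N p)) ^ J * G (Y / (N p : ℝ) ^ (3 * J))) := by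
    intro J
    refine (ENNReal.ofReal_le_ofReal (h J)).trans ?_
    refine ENNReal.ofReal_add_le.trans ?_
    refine add_le_add ?_ le_rfl
    rw [ENNReal.ofReal_sum_of_nonneg (fun j _ => hg j)]
    exact ENNReal.sum_le_tsum _
  have hlim2 : Tendsto (fun J : ℕ => T +
      ENNReal.ofReal ((√(N p)) ^ J * G (Y / (N p : ℝ) ^ (3 * J)))) atTop (𝓝 (T + 0)) := by
    apply Tendsto.add tendsto_const_nhds
    have := ENNReal.tendsto_ofReal hrem
    simpa using this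
  rw [add_zero] at hlim2
  exact ge_of_tendsto' hlim2 hb

/-- the errors satisfy the general recursion -/
theorem Er_recG (hW : Wt W M B) (hρ : Rho3 ρ) (c : ℂ) :
    RecG (fun m D Y => ‖Er W ρ c m D Y‖) where
  nonneg := fun _ _ _ => norm_nonneg _
  step := by
    intro s D p v hs0 hD0 hp hs hD hv Y hY
    have hN := Np_pos hp
    have hρ' := hρ.toRho
    have hrec := Er_rec hW hρ' c
    rw [Er_mod hρ c hs0 hD0 hp hs hv]
    have h3 : v % 3 < 3 := Nat.mod_lt _ (by norm_num)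
    have h4 : v % 3 = 0 ∨ v % 3 = 1 ∨ v % 3 = 2 := by omega
    rcases h4 with h | h | h
    · -- `v ≡ 0`
      rw [h, pow_zero, mul_one]
      have e1 := Er_up (c := c) hW hρ' hs0 hp hs hD hY
      have e2 : ‖Er W ρ c s (D * p) Y‖ ≤ ‖Er W ρ c s D Y‖ +
          ‖Er W ρ c (s * p) (D * p) (Y / N p)‖ := by
        have : Er W ρ c s (D * p) Y = Er W ρ c s D Y -
            gt s p * Er W ρ c (s * p) (D * p) (Y / N p) := by rw [e1]; ring
        rw [this]
        refine (norm_sub_le _ _).trans ?_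
        rw [norm_mul, norm_gt_prime hp hs, one_mul]
      have e3 := hrec.tsum_le hs0 hp hs hD (Y := Y / N p) (by positivity)
      have e4 : ∀ j : ℕ, ∑ o ∈ opts v, ENNReal.ofReal (√(N p) ^ (j + o.2.1) *
          ‖Er W ρ c (s * p ^ o.1) D (Y / (N p : ℝ) ^ (3 * j + 2 * o.2.1 + o.2.2))‖) =
          ENNReal.ofReal (√(N p) ^ j * ‖Er W ρ c s D (Y / (N p : ℝ) ^ (3 * j))‖) +
          ENNReal.ofReal (√(N p) ^ j * ‖Er W ρ c (s * p) D (Y / (N p : ℝ) ^ (3 * j + 1))‖) := by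
        intro j
        rw [opts, if_pos h, Finset.sum_insert (by simp), Finset.sum_singleton]
        simp
      rw [tsum_congr e4, ENNReal.tsum_add]
      refine (ENNReal.ofReal_le_ofReal e2).trans (ENNReal.ofReal_add_le.trans ?_)
      rw [tsum_eq_zero_add' ENNReal.summable, add_assoc]
      refine add_le_add (le_of_eq (by simp)) (e3.trans ?_)
      rw [← ENNReal.tsum_add]
      refine ENNReal.tsum_le_tsum fun j => ?_
      rw [mul_add]
      refine ENNReal.ofReal_add_le.trans ?_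
      rw [add_comm]
      refine add_le_add (le_of_eq ?_) (le_of_eq ?_)
      · congr 1
        rw [← mul_assoc, ← pow_succ, div_div, ← pow_succ']
        congr 3
      · congr 1
        rw [div_div, ← pow_succ']
    · -- `v ≡ 1`
      rw [h, pow_one]
      have e3 := hrec.tsum_le hs0 hp hs hD hY
      refine e3.trans (ENNReal.tsum_le_tsum fun j => ?_)
      rw [mul_add]
      refine ENNReal.ofReal_add_le.trans (le_of_eq ?_)
      rw [opts, if_neg (by omega), if_pos h, Finset.sum_insert (by simp), Finset.sum_singleton]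
      congr 1
      · simp
      · congr 1
        rw [← mul_assoc, ← pow_succ]
        simp
    · -- `v ≡ 2`
      rw [h]
      have e5 := hrec.small (s * p ^ 2) (D * p) (hs0.mul (hp.1.pow 2))
      have e6 := tsum_of_iter hp (G := fun Y => ‖Er W ρ c (s * p ^ 2) (D * p) Y‖)
        (fun _ => norm_nonneg _) e5 hY (g := fun j => (√(N p)) ^ j *
          ‖Er W ρ c (s * p ^ 2) D (Y / (N p : ℝ) ^ (3 * j))‖) (fun j => by positivity)
        (fun J => Er_sq_iter hW hρ' hs0 hp hs hD hY J)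
      refine e6.trans (ENNReal.tsum_le_tsum fun j => le_of_eq ?_)
      rw [opts, if_neg (by omega), if_neg (by omega), Finset.sum_singleton]
      simp

end Vale.Agent.P006.V2
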