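import Vale.Agent.P006.V2.Explicit
import Mathlib.NumberTheory.ModularForms.EisensteinSeries.Summable
import Mathlib.Analysis.MeanInequalities

/-!
P006, block T1A: convergence of `∑ N(k)^{-β}`, Cauchy-Schwarz in `ℝ≥0∞`, divisor bound.
-/

namespace Vale.Agent.P006.V2

open Vale.Agent.P006
open scoped ENNReal BigOperators
open Filter Topology

theorem sq_le_N (k : O) : (3 / 4 : ℝ) * ‖(![k.re, k.im] : Fin 2 → ℤ)‖ ^ 2 ≤ N k := by
  have h1 : (N k : ℝ) = (k.re : ℝ) ^ 2 - k.re * k.im + (k.im : ℝ) ^ 2 := by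
    have : (N k : ℝ) = ((N k : ℤ) : ℝ) := by simp
    rw [this, N_cast_int']; push_cast; ring
  have h2 : ‖(![k.re, k.im] : Fin 2 → ℤ)‖ ^ 2 = (k.re : ℝ) ^ 2 ∨
      ‖(![k.re, k.im] : Fin 2 → ℤ)‖ ^ 2 = (k.im : ℝ) ^ 2 := by
    rw [EisensteinSeries.norm_eq_max_natAbs]
    simp only [Matrix.cons_val_zero, Matrix.cons_val_one]
    rcases max_choice k.re.natAbs k.im.natAbs with h | h
    · left; rw [h, Nat.cast_natAbs, Int.cast_abs, sq_abs]
    · right; rw [h, Nat.cast_natAbs, Int.cast_abs, sq_abs]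
  rw [h1]
  rcases h2 with h2 | h2 <;> rw [h2]
  · nlinarith [sq_nonneg ((k.im : ℝ) - k.re / 2)]
  · nlinarith [sq_nonneg ((k.re : ℝ) - k.im / 2)]

theorem summable_N {β : ℝ} (hβ : 1 < β) : Summable fun k : O => (N k : ℝ) ^ (-β) := by
  have h1 : Summable fun x : Fin 2 → ℤ => ‖x‖ ^ (-(2 * β)) :=
    EisensteinSeries.summable_one_div_norm_rpow (by linarith)
  have hinj : Function.Injective (fun k : O => (![k.re, k.im] : Fin 2 → ℤ)) := by
    intro a b h
    have h0 := congrFun h 0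
    have h1 := congrFun h 1
    simp at h0 h1
    exact QuadraticAlgebra.ext h0 h1
  have h2 := (h1.comp_injective hinj).mul_left ((3 / 4 : ℝ) ^ (-β))
  refine Summable.of_nonneg_of_le (fun k => by positivity) (fun k => ?_) h2
  by_cases hk : k = 0
  · subst hk
    rw [N_zero, Nat.cast_zero, Real.zero_rpow (by linarith)]
    simp only [Function.comp_apply]
    positivity
  · simp only [Function.comp]
    have h3 := sq_le_N k
    set n : ℝ := ‖(![k.re, k.im] : Fin 2 → ℤ)‖ with hn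
    have hn0 : 0 < n := by
      rw [hn, norm_pos_iff]
      intro h
      apply hk
      have h0 := congrFun h 0
      have h1 := congrFun h 1
      simp at h0 h1
      exact QuadraticAlgebra.ext h0 h1
    have h4 : n ^ (-(2 * β)) = (n ^ 2) ^ (-β) := by
      rw [← Real.rpow_natCast n 2, ← Real.rpow_mul hn0.le]; congr 1; push_cast; ring
    rw [h4, ← Real.mul_rpow (by norm_num) (by positivity)]
    exact Real.rpow_le_rpow_of_nonpos (by positivity) h3 (by linarith)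

/-- `∑ N(k)^{-β}` -/
noncomputable def zsum (β : ℝ) : ℝ := ∑' k : O, (N k : ℝ) ^ (-β)

theorem zsum_nonneg (β : ℝ) : 0 ≤ zsum β := tsum_nonneg fun k => by positivity

theorem ennreal_tsum_N {β : ℝ} (hβ : 1 < β) :
    ∑' k : O, ENNReal.ofReal ((N k : ℝ) ^ (-β)) = ENNReal.ofReal (zsum β) := by
  rw [zsum, ENNReal.ofReal_tsum_of_nonneg (fun k => by positivity) (summable_N hβ)]

theorem ennreal_cs_finset {ι : Type*} (s : Finset ι) (w g : ι → ℝ≥0∞) :
    (∑ i ∈ s, w i * g i) ^ 2 ≤ (∑ i ∈ s, w i) * ∑ i ∈ s, w i * g i ^ 2 := by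
  have h := ENNReal.inner_le_weight_mul_Lp_of_nonneg s (p := 2) (by norm_num) w g
  have h2 : ((∑ i ∈ s, w i) ^ (1 - (2 : ℝ)⁻¹) * (∑ i ∈ s, w i * g i ^ (2 : ℝ)) ^ (2 : ℝ)⁻¹) ^ 2 =
      (∑ i ∈ s, w i) * ∑ i ∈ s, w i * g i ^ 2 := by
    rw [mul_pow, ← ENNReal.rpow_natCast, ← ENNReal.rpow_natCast, ← ENNReal.rpow_mul,
      ← ENNReal.rpow_mul]
    norm_num
  rw [← h2]
  exact pow_le_pow_left' h 2

theorem ennreal_cs {ι : Type*} (w g : ι → ℝ≥0∞) :
    (∑' i, w i * g i) ^ 2 ≤ (∑' i, w i) * ∑' i, w i * g i ^ 2 := by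
  have h1 : Tendsto (fun s : Finset ι => (∑ i ∈ s, w i * g i) ^ 2) atTop
      (𝓝 ((∑' i, w i * g i) ^ 2)) := by
    have := (ENNReal.summable (f := fun i => w i * g i)).hasSum
    exact (ENNReal.continuous_pow 2).continuousAt.tendsto.comp this
  refine le_of_tendsto' h1 fun s => ?_
  refine (ennreal_cs_finset s w g).trans ?_
  exact mul_le_mul' (ENNReal.sum_le_tsum s) (ENNReal.sum_le_tsum s)

/-- there are finitely many elements of bounded norm -/
theorem finite_N_le (M : ℝ) : {k : O | (N k : ℝ) ≤ M}.Finite := by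
  have hinj : Function.Injective (fun k : O => (k.re, k.im)) := by
    intro a b h
    simp only [Prod.mk.injEq] at h
    exact QuadraticAlgebra.ext h.1 h.2
  set L : ℤ := ⌈2 * |M|⌉ + 1 with hL
  have hfin : ((Finset.Icc (-L) L ×ˢ Finset.Icc (-L) L : Finset (ℤ × ℤ)) : Set (ℤ × ℤ)).Finite :=
    Finset.finite_toSet _
  refine (hfin.preimage hinj.injOn).subset ?_
  intro k hk
  simp only [Set.mem_ofPred_eq] at hk
  have h1 : (N k : ℝ) = (k.re : ℝ) ^ 2 - k.re * k.im + (k.im : ℝ) ^ 2 := by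
    have : (N k : ℝ) = ((N k : ℤ) : ℝ) := by simp
    rw [this, N_cast_int']; push_cast; ring
  have hM : M ≤ |M| := le_abs_self M
  have hMn : 0 ≤ |M| := abs_nonneg M
  have hL1 : 2 * |M| ≤ (⌈2 * |M|⌉ : ℤ) := Int.le_ceil _
  have hLr : (L : ℝ) = (⌈2 * |M|⌉ : ℤ) + 1 := by rw [hL]; push_cast; ring
  have ha : ∀ z : ℤ, (3 / 4 : ℝ) * (z : ℝ) ^ 2 ≤ |M| → -L ≤ z ∧ z ≤ L := by
    intro z hz
    have h2 : (z : ℝ) ^ 2 ≤ (L : ℝ) ^ 2 := by
      rw [hLr]; nlinarith
    have hL0 : (0 : ℝ) ≤ L := by rw [hLr]; linarith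
    have h3 := abs_le_of_sq_le_sq' h2 hL0
    exact ⟨by exact_mod_cast h3.1, by exact_mod_cast h3.2⟩
  have hre := ha k.re (by nlinarith [sq_nonneg ((k.im : ℝ) - k.re / 2)])
  have him := ha k.im (by nlinarith [sq_nonneg ((k.re : ℝ) - k.im / 2)])
  simp only [Set.mem_preimage, Finset.coe_product, Set.mem_prod, Finset.coe_Icc, Set.mem_Icc]
  exact ⟨hre, him⟩

/-- factorisations `r = t * s` with `t` primary -/
abbrev Divs (r : O) := {x : O × O // Primary x.1 ∧ x.1 * x.2 = r}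

theorem count_step {r p : O} (hp : PrP p) :
    ∑' _ : Divs (r * p), (1 : ℝ≥0∞) ≤ 2 * ∑' _ : Divs r, (1 : ℝ≥0∞) := by
  let f : Bool × Divs r → Divs (r * p) := fun y =>
    if y.1 then ⟨(y.2.1.1, y.2.1.2 * p), y.2.2.1, by
      have := y.2.2.2; simp only; linear_combination p * this⟩
    else ⟨(y.2.1.1 * p, y.2.1.2), y.2.2.1.mul hp.1, by
      have := y.2.2.2; simp only; linear_combination p * this⟩
  have hf : Function.Surjective f := by
    rintro ⟨⟨t, s⟩, ht, hts⟩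
    simp only at ht hts
    have hd : p ∣ t * s := by rw [hts]; exact dvd_mul_left p r
    rcases hp.2.dvd_or_dvd hd with ⟨t', rfl⟩ | ⟨s', rfl⟩
    · have h1 : t' * s = r := mul_right_cancel₀ hp.ne_zero (by rw [← hts]; ring)
      refine ⟨(false, ⟨(t', s), hp.1.of_mul ht, h1⟩), ?_⟩
      simp only [f, Bool.false_eq_true, if_false, Subtype.mk.injEq, Prod.mk.injEq, and_true]
      ring
    · have h1 : t * s' = r := mul_right_cancel₀ hp.ne_zero (by rw [← hts]; ring)
      refine ⟨(true, ⟨(t, s'), ht, h1⟩), ?_⟩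
      simp only [f, if_true, Subtype.mk.injEq, Prod.mk.injEq, true_and]
      ring
  have h1 := ENNReal.tsum_le_tsum_comp_of_surjective hf (fun _ => (1 : ℝ≥0∞))
  refine h1.trans (le_of_eq ?_)
  rw [ENNReal.tsum_prod', tsum_bool]
  ring

theorem count_one : ∑' _ : Divs 1, (1 : ℝ≥0∞) ≤ 1 := by
  have : Subsingleton (Divs 1) := by
    constructor
    rintro ⟨⟨t, s⟩, ht, hts⟩ ⟨⟨t', s'⟩, ht', hts'⟩
    simp only at ht hts ht' hts'
    have h1 : t = 1 := ht.eq_one (IsUnit.of_mul_eq_one s hts)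
    have h2 : t' = 1 := ht'.eq_one (IsUnit.of_mul_eq_one s' hts')
    subst h1 h2
    rw [one_mul] at hts hts'
    subst hts hts'
    rfl
  refine le_trans (ENNReal.tsum_le_tsum_comp_of_surjective (f := fun _ : Unit =>
    (⟨(1, 1), primary_one, one_mul 1⟩ : Divs 1)) ?_ _) ?_
  · intro x; exact ⟨(), Subsingleton.elim _ _⟩
  · simp

theorem divisor_bound {η : ℝ} (hη : 0 < η) : ∃ C : ℝ, 1 ≤ C ∧ ∀ r, PP r →
    ∑' _ : Divs r, (1 : ℝ≥0∞) ≤ ENNReal.ofReal (C * (N r : ℝ) ^ η) := by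
  classical
  set M : ℝ := (2 : ℝ) ^ (1 / η) with hM
  set Q : Finset O := (finite_N_le M).toFinset with hQ
  have hQmem : ∀ x, x ∈ Q ↔ (N x : ℝ) ≤ M := fun x => by rw [hQ]; simp
  have key : ∀ r, PP r → ∑' _ : Divs r, (1 : ℝ≥0∞) ≤
      ENNReal.ofReal ((2 : ℝ) ^ (Q.filter (fun q => q ∣ r ∧ PrP q)).card * (N r : ℝ) ^ η) := by
    apply PP.induction
    · refine count_one.trans ?_
      rw [ENNReal.one_le_ofReal]
      simp only [N_one, Nat.cast_one, Real.one_rpow, mul_one]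
      exact one_le_pow₀ (by norm_num)
    · intro r p hr hp hpr ih
      refine (count_step hp).trans ?_
      have hN0 : (0 : ℝ) < N p := by exact_mod_cast N_pos hp.ne_zero
      have hN1 : (1 : ℝ) ≤ N p := by exact_mod_cast N_pos hp.ne_zero
      have hr0 : (0 : ℝ) < N r := by exact_mod_cast N_pos hr.ne_zero
      have hsub : Q.filter (fun q => q ∣ r ∧ PrP q) ⊆ Q.filter (fun q => q ∣ r * p ∧ PrP q) := by
        intro q hq
        rw [Finset.mem_filter] at hq ⊢
        exact ⟨hq.1, hq.2.1.trans (dvd_mul_right r p), hq.2.2⟩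
      have h2 : (2 : ℝ≥0∞) * ENNReal.ofReal
          ((2 : ℝ) ^ (Q.filter (fun q => q ∣ r ∧ PrP q)).card * (N r : ℝ) ^ η) =
          ENNReal.ofReal (2 * ((2 : ℝ) ^ (Q.filter (fun q => q ∣ r ∧ PrP q)).card * (N r : ℝ) ^ η)) := by
        rw [ENNReal.ofReal_mul (by norm_num)]; simp
      refine (mul_le_mul_right ih 2).trans ?_
      rw [h2]
      apply ENNReal.ofReal_le_ofReal
      rw [N_mul, Nat.cast_mul, Real.mul_rpow hr0.le hN0.le]
      have hpos : 0 ≤ (N r : ℝ) ^ η := by positivity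
      by_cases hpQ : p ∈ Q
      · have hcard : (Q.filter (fun q => q ∣ r ∧ PrP q)).card + 1 ≤
            (Q.filter (fun q => q ∣ r * p ∧ PrP q)).card := by
          apply Finset.card_lt_card
          refine ⟨hsub, fun h => ?_⟩
          have h5 : p ∈ Q.filter (fun q => q ∣ r ∧ PrP q) := h (by
            rw [Finset.mem_filter]; exact ⟨hpQ, dvd_mul_left p r, hp⟩)
          rw [Finset.mem_filter] at h5
          exact hpr h5.2.1
        have h3 : (2 : ℝ) * 2 ^ (Q.filter (fun q => q ∣ r ∧ PrP q)).card ≤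
            2 ^ (Q.filter (fun q => q ∣ r * p ∧ PrP q)).card := by
          rw [← pow_succ']
          exact pow_le_pow_right₀ (by norm_num) hcard
        have h4 : 1 ≤ (N p : ℝ) ^ η := Real.one_le_rpow hN1 hη.le
        calc (2 : ℝ) * (2 ^ (Q.filter (fun q => q ∣ r ∧ PrP q)).card * (N r : ℝ) ^ η)
            = (2 * 2 ^ (Q.filter (fun q => q ∣ r ∧ PrP q)).card) * ((N r : ℝ) ^ η * 1) := by ring
          _ ≤ 2 ^ (Q.filter (fun q => q ∣ r * p ∧ PrP q)).card * ((N r : ℝ) ^ η * (N p : ℝ) ^ η) := by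
              gcongr
      · have h3 : (2 : ℝ) ^ (Q.filter (fun q => q ∣ r ∧ PrP q)).card ≤
            2 ^ (Q.filter (fun q => q ∣ r * p ∧ PrP q)).card :=
          pow_le_pow_right₀ (by norm_num) (Finset.card_le_card hsub)
        have h4 : 2 ≤ (N p : ℝ) ^ η := by
          rw [hQmem, not_le] at hpQ
          have h5 : M ^ η ≤ (N p : ℝ) ^ η := Real.rpow_le_rpow (by positivity) hpQ.le hη.le
          have h6 : M ^ η = 2 := by
            rw [hM, ← Real.rpow_mul (by norm_num), one_div_mul_cancel hη.ne', Real.rpow_one]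
          linarith
        calc (2 : ℝ) * (2 ^ (Q.filter (fun q => q ∣ r ∧ PrP q)).card * (N r : ℝ) ^ η)
            = 2 ^ (Q.filter (fun q => q ∣ r ∧ PrP q)).card * ((N r : ℝ) ^ η * 2) := by ring
          _ ≤ 2 ^ (Q.filter (fun q => q ∣ r * p ∧ PrP q)).card * ((N r : ℝ) ^ η * (N p : ℝ) ^ η) := by
              gcongr
  refine ⟨2 ^ Q.card, one_le_pow₀ (by norm_num), fun r hr => (key r hr).trans ?_⟩
  apply ENNReal.ofReal_le_ofReal
  gcongr
  · norm_num
  · exact Finset.filter_subset _ _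

end Vale.Agent.P006.V2
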