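import Vale.Agent.P006.V2.TI1
import Vale.Agent.P006.KER.Twist
import Vale.Agent.P006.TI.T1
import Vale.Agent.P006.CR.GaussSumB

/-!
P006, block T1A: the automorphic input (mean square over the frequency), in the form consumed by
Type I sums, and its extension to short lengths.
-/

namespace Vale.Agent.P006.V2

open Vale.Agent.P006 MeasureTheory Set Filter
open Vale.Agent.P006.KER (Nice)
open scoped ContDiff Topology BigOperators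

/-- the sum `∑_{c primary} g̃(m,c) N(c)^{it} U(N(c)/Y)` -/
noncomputable def FS (U : ℝ → ℂ) (t : ℝ) (m : O) (Y : ℝ) : ℂ :=
  ∑' c : O, open Classical in
    if Primary c then gt m c * ((N c : ℂ) ^ ((t : ℂ) * Complex.I) * U (N c / Y)) else 0

/-- its main term -/
noncomputable def FM (U : ℝ → ℂ) (t : ℝ) (z : ℂ) (Y : ℝ) : ℂ :=
  z * ((Y : ℂ) ^ ((5 / 6 : ℂ) + t * Complex.I) * mellin U ((5 / 6 : ℂ) + t * Complex.I))

/-- **Automorphic input**: mean square over the frequency `m ≠ 0`, with moving lengths. -/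
def FCHyp (θ : O → ℂ) : Prop :=
  ∀ (U : ℝ → ℂ) (a b : ℝ), Nice U a b → ∀ ε : ℝ, 0 < ε → ∃ C : ℝ, 0 ≤ C ∧
    ∀ R Y t : ℝ, 1 ≤ R → 1 ≤ Y → ∀ (S : Finset O) (y : O → ℝ),
      (∀ m ∈ S, m ≠ 0 ∧ (N m : ℝ) ≤ R) → (∀ m ∈ S, Y ≤ y m ∧ y m ≤ 2 * Y) →
      ∑ m ∈ S, ‖FS U t m (y m) - FM U t (θ m) (y m)‖ ^ 2 ≤
        C * (R * Y * (1 + |t|)) ^ ε * (R * Y * (1 + |t|) + Y * (1 + |t|) ^ 3)

theorem Wt_tw {U : ℝ → ℂ} {a b S : ℝ} (H : Nice U a b) (hS : ∀ x, ‖U x‖ ≤ S) (t : ℝ) :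
    Wt (KER.tw U t) b S where
  zero := fun x hx => by rw [KER.tw, H.eq_zero_of_ge hx, mul_zero]
  bdd := fun x => by rw [KER.norm_tw]; exact hS x
  M_pos := H.pos.trans_le H.le

theorem FS_eq (U : ℝ → ℂ) (t : ℝ) (m : O) {Y : ℝ} (hY : 0 < Y) :
    FS U t m Y = (Y : ℂ) ^ ((t : ℂ) * Complex.I) * SA (KER.tw U t) m 1 Y := by
  rw [FS, SA, ← tsum_mul_left]
  refine tsum_congr fun c => ?_
  rw [sm]
  by_cases hc : Primary c
  · have hN : (0 : ℝ) < N c := N_pos_real hc.ne_zero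
    rw [if_pos hc, if_pos ⟨hc, isCoprime_one_right⟩, KER.tw_eq_cpow U t (by positivity)]
    have := TI.cast_cpow_eq hN hY ((t : ℂ) * Complex.I)
    rw [Complex.ofReal_natCast] at this
    rw [this]
    ring
  · rw [if_neg hc, if_neg (fun h => hc h.1), mul_zero]

theorem cpow_split {Y : ℝ} (hY : 0 < Y) (t : ℝ) :
    (Y : ℂ) ^ ((5 / 6 : ℂ) + t * Complex.I) =
      (Y : ℂ) ^ ((t : ℂ) * Complex.I) * ((Y ^ (5 / 6 : ℝ) : ℝ) : ℂ) := by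
  rw [add_comm, Complex.cpow_add _ _ (by exact_mod_cast hY.ne'), Complex.ofReal_cpow hY.le]
  congr 2
  push_cast
  rfl

theorem norm_cpow_I {Y : ℝ} (hY : 0 < Y) (t : ℝ) : ‖(Y : ℂ) ^ ((t : ℂ) * Complex.I)‖ = 1 := by
  rw [Complex.norm_cpow_eq_rpow_re_of_pos hY]
  simp

theorem norm_Er_tw (U : ℝ → ℂ) (t : ℝ) (θ : O → ℂ) (m : O) {Y : ℝ} (hY : 0 < Y) :
    ‖Er (KER.tw U t) θ (mellin U ((5 / 6 : ℂ) + t * Complex.I)) m 1 Y‖ =
      ‖FS U t m Y - FM U t (θ m) Y‖ := by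
  have h1 : FS U t m Y - FM U t (θ m) Y = (Y : ℂ) ^ ((t : ℂ) * Complex.I) *
      Er (KER.tw U t) θ (mellin U ((5 / 6 : ℂ) + t * Complex.I)) m 1 Y := by
    rw [FS_eq U t m hY, FM, cpow_split hY, Er, mn, hfac_one]
    push_cast
    ring
  rw [h1, norm_mul, norm_cpow_I hY, one_mul]

theorem norm_gt_le (m : O) {c : O} (hc : c ≠ 0) : ‖gt m c‖ ≤ √(N c : ℝ) := by
  have hN : (0 : ℝ) < N c := N_pos_real hc
  rw [gt, norm_div, Complex.norm_real, Real.norm_of_nonneg (Real.sqrt_nonneg _),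
    div_le_iff₀ (Real.sqrt_pos.2 hN), Real.mul_self_sqrt hN.le]
  exact CRB.norm_gs_le m hc

/-- trivial bound -/
theorem norm_SA_le {W : ℝ → ℂ} {M B : ℝ} (hW : Wt W M B) (m D : O) {Y : ℝ} (hY : 0 < Y) :
    ‖SA W m D Y‖ ≤ 4 * B * (M * Y) ^ (3 / 2 : ℝ) := by
  classical
  have hB : 0 ≤ B := (norm_nonneg _).trans (hW.bdd 0)
  have hM := hW.M_pos
  have hMY : 0 < M * Y := by positivity
  have h1 : SA W m D Y = ∑ a ∈ PB (M * Y), sm W m D Y a := by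
    rw [SA]
    apply tsum_eq_sum
    intro a ha
    by_contra h
    apply ha
    have h2 := sm_support hW m D hY h
    rw [Set.mem_ofPred_eq] at h2
    rw [mem_PB]
    refine ⟨?_, h2⟩
    by_contra h3
    apply h
    rw [sm, if_neg (fun h4 => h3 h4.1)]
  have h2 : ∀ a ∈ PB (M * Y), ‖sm W m D Y a‖ ≤ √(M * Y) * B := by
    intro a ha
    rw [mem_PB] at ha
    rw [sm]
    split_ifs
    · rw [norm_mul]
      refine mul_le_mul ((norm_gt_le m ha.1.ne_zero).trans (Real.sqrt_le_sqrt ha.2)) (hW.bdd _)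
        (norm_nonneg _) (Real.sqrt_nonneg _)
    · rw [norm_zero]; positivity
  rw [h1]
  refine (norm_sum_le_of_le _ h2).trans ?_
  rw [Finset.sum_const, nsmul_eq_mul]
  have h3 : ((PB (M * Y)).card : ℝ) ≤ 4 * (M * Y) := card_PB_le hMY.le
  have h4 : (M * Y) ^ (3 / 2 : ℝ) = (M * Y) * √(M * Y) := by
    rw [Real.sqrt_eq_rpow, show (3 / 2 : ℝ) = 1 + 1 / 2 by norm_num, Real.rpow_add hMY,
      Real.rpow_one]
  rw [h4]
  calc ((PB (M * Y)).card : ℝ) * (√(M * Y) * B) ≤ 4 * (M * Y) * (√(M * Y) * B) := by gcongr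
    _ = _ := by ring

theorem norm_mellin_le' (U : ℝ → ℂ) (t : ℝ) :
    ‖mellin U ((5 / 6 : ℂ) + t * Complex.I)‖ ≤ ∫ u in Ioi (0 : ℝ), u ^ (-(1 / 6) : ℝ) * ‖U u‖ := by
  unfold mellin
  refine (norm_integral_le_integral_norm _).trans (le_of_eq ?_)
  refine setIntegral_congr_fun measurableSet_Ioi fun u hu => ?_
  have hu0 : (0 : ℝ) < u := hu
  show ‖(u : ℂ) ^ ((5 / 6 : ℂ) + t * Complex.I - 1) • U u‖ = u ^ (-(1 / 6) : ℝ) * ‖U u‖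
  rw [norm_smul, Complex.norm_cpow_eq_rpow_re_of_pos hu0]
  congr 2
  simp
  norm_num

/-- the individual bound for short lengths -/
theorem Er_short {W : ℝ → ℂ} {M B : ℝ} (hW : Wt W M B) {ρ : O → ℂ} {c : ℂ} {m D : O} {Y y : ℝ}
    (hY : 0 < Y) (hY1 : Y ≤ 1) (hy1 : Y ≤ y) (hy2 : y ≤ 2 * Y) {α P : ℝ}
    (hα2 : α ≤ 5 / 3) (hρ : ‖ρ m‖ ≤ P) :
    ‖Er W ρ c m D y‖ ^ 2 ≤ 2 * ((4 * B * (2 * M) ^ (3 / 2 : ℝ)) ^ 2 + (2 * (P * ‖c‖)) ^ 2) *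
      Y ^ α := by
  have hB : 0 ≤ B := (norm_nonneg _).trans (hW.bdd 0)
  have hM := hW.M_pos
  have hy : 0 < y := hY.trans_le hy1
  have hP : 0 ≤ P := (norm_nonneg _).trans hρ
  -- the sum
  have h1 : ‖SA W m D y‖ ≤ (4 * B * (2 * M) ^ (3 / 2 : ℝ)) * Y ^ (5 / 6 : ℝ) := by
    refine (norm_SA_le hW m D hy).trans ?_
    have h2 : (M * y) ^ (3 / 2 : ℝ) ≤ (2 * M * Y) ^ (3 / 2 : ℝ) :=
      Real.rpow_le_rpow (by positivity) (by nlinarith) (by norm_num)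
    have h3 : (2 * M * Y) ^ (3 / 2 : ℝ) = (2 * M) ^ (3 / 2 : ℝ) * Y ^ (3 / 2 : ℝ) :=
      Real.mul_rpow (by positivity) hY.le
    have h4 : Y ^ (3 / 2 : ℝ) ≤ Y ^ (5 / 6 : ℝ) :=
      Real.rpow_le_rpow_of_exponent_ge hY hY1 (by norm_num)
    calc 4 * B * (M * y) ^ (3 / 2 : ℝ) ≤ 4 * B * ((2 * M) ^ (3 / 2 : ℝ) * Y ^ (5 / 6 : ℝ)) := by
          apply mul_le_mul_of_nonneg_left _ (by positivity)
          refine h2.trans ?_
          rw [h3]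
          exact mul_le_mul_of_nonneg_left h4 (by positivity)
      _ = _ := by ring
  -- the main term
  have h5 : ‖mn ρ c m D y‖ ≤ (2 * (P * ‖c‖)) * Y ^ (5 / 6 : ℝ) := by
    have h6 : y ^ (5 / 6 : ℝ) ≤ 2 * Y ^ (5 / 6 : ℝ) := by
      have h7 : y ^ (5 / 6 : ℝ) ≤ (2 * Y) ^ (5 / 6 : ℝ) :=
        Real.rpow_le_rpow hy.le hy2 (by norm_num)
      rw [Real.mul_rpow (by norm_num) hY.le] at h7
      have h8 : (2 : ℝ) ^ (5 / 6 : ℝ) ≤ 2 := by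
        calc (2 : ℝ) ^ (5 / 6 : ℝ) ≤ 2 ^ (1 : ℝ) :=
              Real.rpow_le_rpow_of_exponent_le (by norm_num) (by norm_num)
          _ = 2 := Real.rpow_one 2
      have h9 : 0 ≤ Y ^ (5 / 6 : ℝ) := by positivity
      nlinarith
    rw [mn, norm_mul, norm_mul, norm_mul, Complex.norm_real, Complex.norm_real,
      Real.norm_of_nonneg (hfac_pos D).le, Real.norm_of_nonneg (by positivity)]
    have h10 := hfac_le_one D
    have h11 := (hfac_pos D).le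
    calc ‖ρ m‖ * hfac D * y ^ (5 / 6 : ℝ) * ‖c‖ ≤ P * 1 * (2 * Y ^ (5 / 6 : ℝ)) * ‖c‖ := by
          gcongr
      _ = _ := by ring
  have h12 : ‖Er W ρ c m D y‖ ≤ (4 * B * (2 * M) ^ (3 / 2 : ℝ) + 2 * (P * ‖c‖)) *
      Y ^ (5 / 6 : ℝ) := by
    rw [Er, add_mul]
    exact (norm_sub_le _ _).trans (add_le_add h1 h5)
  have h13 : (Y ^ (5 / 6 : ℝ)) ^ 2 ≤ Y ^ α := by
    rw [← Real.rpow_natCast, ← Real.rpow_mul hY.le]
    exact Real.rpow_le_rpow_of_exponent_ge hY hY1 (by push_cast; linarith)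
  set p := 4 * B * (2 * M) ^ (3 / 2 : ℝ)
  set q := 2 * (P * ‖c‖)
  have h14 : (p + q) ^ 2 ≤ 2 * (p ^ 2 + q ^ 2) := by nlinarith [sq_nonneg (p - q)]
  calc ‖Er W ρ c m D y‖ ^ 2 ≤ ((p + q) * Y ^ (5 / 6 : ℝ)) ^ 2 :=
        pow_le_pow_left₀ (norm_nonneg _) h12 2
    _ = (p + q) ^ 2 * (Y ^ (5 / 6 : ℝ)) ^ 2 := by ring
    _ ≤ 2 * (p ^ 2 + q ^ 2) * Y ^ α := by gcongr

theorem card_le_of_primary {S : Finset O} {R : ℝ} (hR : 0 ≤ R)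
    (hS : ∀ m ∈ S, Primary m ∧ (N m : ℝ) ≤ R) : (S.card : ℝ) ≤ 4 * R := by
  have h1 : S ⊆ PB R := fun m hm => mem_PB.2 (hS m hm)
  calc (S.card : ℝ) ≤ ((PB R).card : ℝ) := by exact_mod_cast Finset.card_le_card h1
    _ ≤ 4 * R := card_PB_le hR

/-- from the automorphic input to the mean square hypothesis, all lengths -/
theorem FC_ms {θ : O → ℂ} (h : FCHyp θ) {Q : O → Prop} (hQ : ∀ m, Q m → Primary m)
    {P : ℝ} (hP0 : 0 ≤ P) (hP : ∀ m, Q m → ‖θ m‖ ≤ P)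
    {U : ℝ → ℂ} {a b : ℝ} (H : Nice U a b) {η : ℝ} (hη : 0 < η) (hη1 : η ≤ 2 / 3) :
    ∃ C : ℝ, 0 ≤ C ∧ ∀ R Y t : ℝ, 1 ≤ R → 0 < Y → ∀ (S : Finset O) (y : O → ℝ),
      (∀ m ∈ S, Q m ∧ (N m : ℝ) ≤ R) → (∀ m ∈ S, Y ≤ y m ∧ y m ≤ 2 * Y) →
      ∑ m ∈ S, ‖Er (KER.tw U t) θ (mellin U ((5 / 6 : ℂ) + t * Complex.I)) m 1 (y m)‖ ^ 2 ≤
        (C * (1 + |t|) ^ (1 + η) * R + C * (1 + |t|) ^ (3 + η)) * R ^ η * Y ^ (1 + η) := by
  obtain ⟨C1, hC1, h1⟩ := h U a b H η hη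
  obtain ⟨B, hB, hUB⟩ := TI.exists_norm_le H
  set I0 : ℝ := ∫ u in Ioi (0 : ℝ), u ^ (-(1 / 6) : ℝ) * ‖U u‖ with hI0
  set C2 : ℝ := 2 * ((4 * B * (2 * b) ^ (3 / 2 : ℝ)) ^ 2 + (2 * (P * I0)) ^ 2) with hC2
  have hC20 : 0 ≤ C2 := by rw [hC2]; positivity
  refine ⟨C1 + 4 * C2, by positivity, ?_⟩
  intro R Y t hR hY S y hS hy
  have hT : 1 ≤ 1 + |t| := by have := abs_nonneg t; linarith
  have hT0 : 0 < 1 + |t| := by linarith
  have hT1 : (1 + |t|) ^ (1 + η) = (1 + |t|) * (1 + |t|) ^ η := by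
    rw [Real.rpow_add hT0, Real.rpow_one]
  have hT3 : (1 + |t|) ^ (3 + η) = (1 + |t|) ^ 3 * (1 + |t|) ^ η := by
    rw [Real.rpow_add hT0, show (3 : ℝ) = ((3 : ℕ) : ℝ) by norm_num, Real.rpow_natCast]
  have hYY : Y ^ (1 + η) = Y * Y ^ η := by rw [Real.rpow_add hY, Real.rpow_one]
  have hR0 : 0 < R := by linarith
  by_cases hY1 : 1 ≤ Y
  · have h2 := h1 R Y t hR hY1 S y (fun m hm => ⟨(hQ _ (hS m hm).1).ne_zero, (hS m hm).2⟩) hy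
    have h3 : ∑ m ∈ S, ‖Er (KER.tw U t) θ (mellin U ((5 / 6 : ℂ) + t * Complex.I)) m 1 (y m)‖ ^ 2 =
        ∑ m ∈ S, ‖FS U t m (y m) - FM U t (θ m) (y m)‖ ^ 2 := by
      refine Finset.sum_congr rfl fun m hm => ?_
      rw [norm_Er_tw U t θ m (hY.trans_le (hy m hm).1)]
    rw [h3]
    refine h2.trans ?_
    rw [Real.mul_rpow (by positivity) hT0.le, Real.mul_rpow hR0.le hY.le, hT1, hT3, hYY]
    have e : C1 * (R ^ η * Y ^ η * (1 + |t|) ^ η) * (R * Y * (1 + |t|) + Y * (1 + |t|) ^ 3) =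
        (C1 * ((1 + |t|) * (1 + |t|) ^ η) * R + C1 * ((1 + |t|) ^ 3 * (1 + |t|) ^ η)) * R ^ η *
          (Y * Y ^ η) := by ring
    rw [e]
    gcongr <;> linarith
  · rw [not_le] at hY1
    have h2 : ∀ m ∈ S, ‖Er (KER.tw U t) θ (mellin U ((5 / 6 : ℂ) + t * Complex.I)) m 1 (y m)‖ ^ 2 ≤
        C2 * Y ^ (1 + η) := by
      intro m hm
      refine (Er_short (Wt_tw H hUB t) hY hY1.le (hy m hm).1 (hy m hm).2
        (α := 1 + η) (by linarith) (hP m (hS m hm).1)).trans ?_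
      have h3 := norm_mellin_le' U t
      rw [← hI0] at h3
      rw [hC2]
      gcongr
    have h4 : (S.card : ℝ) ≤ 4 * R := card_le_of_primary hR0.le (fun m hm => ⟨hQ _ (hS m hm).1, (hS m hm).2⟩)
    calc ∑ m ∈ S, ‖Er (KER.tw U t) θ (mellin U ((5 / 6 : ℂ) + t * Complex.I)) m 1 (y m)‖ ^ 2
        ≤ (S.card : ℝ) * (C2 * Y ^ (1 + η)) := by
          rw [← nsmul_eq_mul]; exact Finset.sum_le_card_nsmul _ _ _ h2
      _ ≤ 4 * R * (C2 * Y ^ (1 + η)) := by gcongr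
      _ = (4 * C2 * 1 * R + 0) * 1 * Y ^ (1 + η) := by ring
      _ ≤ ((C1 + 4 * C2) * (1 + |t|) ^ (1 + η) * R + (C1 + 4 * C2) * (1 + |t|) ^ (3 + η)) *
          R ^ η * Y ^ (1 + η) := by
          have h5 : 1 ≤ (1 + |t|) ^ (1 + η) := Real.one_le_rpow hT (by linarith)
          have h6 : 1 ≤ R ^ η := Real.one_le_rpow hR hη.le
          have h7 : 0 ≤ (C1 + 4 * C2) * (1 + |t|) ^ (3 + η) := by positivity
          gcongr
          linarith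

/-- the mean square hypothesis of `LE_dyadic` -/
theorem FC_msBound {θ : O → ℂ} (h : FCHyp θ) (hθ : Rho θ) {U : ℝ → ℂ} {a b : ℝ} (H : Nice U a b)
    {η : ℝ} (hη : 0 < η) (hη1 : η ≤ 2 / 3) :
    ∃ C : ℝ, 0 ≤ C ∧ ∀ t : ℝ,
      MSBound (fun m D Y => ‖Er (KER.tw U t) θ (mellin U ((5 / 6 : ℂ) + t * Complex.I)) m D Y‖)
        (fun _ => 1) (C * (1 + |t|) ^ (1 + η)) (C * (1 + |t|) ^ (3 + η)) (1 + η) η := by
  obtain ⟨C, hC, h1⟩ := FC_ms h (Q := PP) (fun m hm => hm.1) (norm_nonneg (θ 1))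
    (fun m hm => norm_rho_le hθ hm) H hη hη1
  exact ⟨C, hC, fun t R Y hR hY S y hS hy => h1 R Y t hR hY S y hS hy⟩

theorem vr_eq : ∀ r, PP r → TI.vr r = (N r : ℝ)⁻¹ * hfac r := by
  apply PP.induction
  · simp [TI.vr_one]
  · intro r p hr hp hpr ih
    have hN := Np_pos hp
    rw [mul_comm r p, TI.vr_mul hp.2 hp.1 hr.1 hpr, ih, mul_comm p r, hfac_mul_prime hp hpr, N_mul,
      Nat.cast_mul, mul_inv]
    have h1 : (1 + 1 / (N p : ℝ))⁻¹ * (N p : ℝ)⁻¹ = ((N p : ℝ) + 1)⁻¹ := by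
      rw [← mul_inv]; congr 1; field_simp
    rw [← h1]
    ring

end Vale.Agent.P006.V2
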