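import Vale.Agent.P006.V2.FCIn

/-!
P006, block T1A: TI-1 in the form consumed by block TI (helper26): `MSq (gt 1) (θ 1) A B`.
-/

namespace Vale.Agent.P006.V2

open Vale.Agent.P006 MeasureTheory Set Filter
open Vale.Agent.P006.KER (Nice)
open scoped ContDiff Topology BigOperators

theorem LA_tw {U : ℝ → ℂ} {a b : ℝ} (H : Nice U a b) (t : ℝ) {r : O} {X : ℝ}
    (hX : 0 < X) :
    TI.wsum (gt 1) U (b * X) X t r =
      (X : ℂ) ^ ((t : ℂ) * Complex.I) * LA (KER.tw U t) r X := by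
  classical
  rw [LA, tsum_eq_sum (s := TI.SM r (b * X)), TI.wsum, Finset.mul_sum]
  · refine Finset.sum_congr rfl fun c hc => ?_
    rw [TI.mem_SM] at hc
    have hN : (0 : ℝ) < N c := N_pos_real hc.1.ne_zero
    rw [if_pos ⟨hc.1, hc.2.2.1⟩, KER.tw_eq_cpow U t (by positivity)]
    have := TI.cast_cpow_eq hN hX ((t : ℂ) * Complex.I)
    rw [Complex.ofReal_natCast] at this
    rw [this]
    ring
  · intro c hc
    split_ifs with h
    · by_cases hs : Squarefree c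
      · have h1 : ¬ (N c : ℝ) ≤ b * X := fun h2 => hc (TI.mem_SM.2 ⟨h.1, hs, h.2, h2⟩)
        have h3 : KER.tw U t (N c / X) = 0 := by
          rw [KER.tw, H.eq_zero_of_ge, mul_zero]
          rw [lt_div_iff₀ hX]
          exact not_le.1 h1
        rw [h3, mul_zero]
      · rw [gt_one_eq_zero h.1 hs, zero_mul]
    · rfl

theorem norm_wsum_sub {U : ℝ → ℂ} {a b : ℝ} (H : Nice U a b) (t : ℝ) (θ : O → ℂ) {r : O}
    (hr : PP r) {X : ℝ} (hX : 0 < X) :
    ‖TI.wsum (gt 1) U (b * X) X t r - θ 1 * TI.mt U X t r‖ =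
      LE (KER.tw U t) θ (mellin U ((5 / 6 : ℂ) + t * Complex.I)) r X := by
  have h1 : TI.wsum (gt 1) U (b * X) X t r - θ 1 * TI.mt U X t r =
      (X : ℂ) ^ ((t : ℂ) * Complex.I) * (LA (KER.tw U t) r X -
        θ 1 * (((N r : ℝ)⁻¹ * hfac r * X ^ (5 / 6 : ℝ) : ℝ) : ℂ) *
          mellin U ((5 / 6 : ℂ) + t * Complex.I)) := by
    rw [LA_tw H t hX, TI.mt, cpow_split hX, vr_eq r hr]
    push_cast
    ring
  rw [h1, norm_mul, norm_cpow_I hX, one_mul, LE]

/-- **TI-1**: the mean square Type I estimate for the normalised Gauss sums. -/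
theorem MSq_gt {θ : O → ℂ} (h : FCHyp θ) (hθ : Rho θ) {A B : ℝ} (hA : 1 < A) (hB : 3 < B) :
    TI.MSq (gt 1) (θ 1) A B := by
  intro U a b H ε hε
  set η : ℝ := min (min (ε / 3) (2 / 3)) (min (A - 1) (B - 3)) with hη
  have hη0 : 0 < η := by
    rw [hη]
    exact lt_min (lt_min (by linarith) (by norm_num)) (lt_min (by linarith) (by linarith))
  have hη1 : η ≤ ε / 3 := (min_le_left _ _).trans (min_le_left _ _)
  have hη2 : η ≤ 2 / 3 := (min_le_left _ _).trans (min_le_right _ _)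
  have hη3 : η ≤ A - 1 := (min_le_right _ _).trans (min_le_left _ _)
  have hη4 : η ≤ B - 3 := (min_le_right _ _).trans (min_le_right _ _)
  obtain ⟨S0, hS0, hUS⟩ := TI.exists_norm_le H
  obtain ⟨C1, hC1, h1⟩ := FC_msBound h hθ H hη0 hη2
  obtain ⟨C2, hC2, h2⟩ := LE_dyadic (α := 1 + η) (η := η) (by linarith) hη0
  refine ⟨C2 * C1 * 4, by positivity, ?_⟩
  intro X R t hR hRX
  have hR0 : 0 < R := by linarith
  have hX0 : 0 < X := by linarith
  have hX1 : 1 ≤ X := hR.trans hRX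
  have hT : 1 ≤ 1 + |t| := by have := abs_nonneg t; linarith
  have hT0 : 0 < 1 + |t| := by linarith
  have h3 := h2 (KER.tw U t) b S0 θ (mellin U ((5 / 6 : ℂ) + t * Complex.I)) (Wt_tw H hUS t) hθ
    (C1 * (1 + |t|) ^ (1 + η)) (C1 * (1 + |t|) ^ (3 + η)) (by positivity) (by positivity) (h1 t)
    (2 * R) X (by linarith) hX0 (TI.SR R) (by
      intro r hr
      rw [TI.mem_SR] at hr
      refine ⟨⟨hr.1, hr.2.1⟩, ?_, hr.2.2.2⟩
      linarith [hr.2.2.1])
  have h4 : ∑ r ∈ TI.SR R, ‖TI.wsum (gt 1) U (b * X) X t r - θ 1 * TI.mt U X t r‖ ^ 2 =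
      ∑ r ∈ TI.SR R, LE (KER.tw U t) θ (mellin U ((5 / 6 : ℂ) + t * Complex.I)) r X ^ 2 := by
    refine Finset.sum_congr rfl fun r hr => ?_
    rw [TI.mem_SR] at hr
    rw [norm_wsum_sub H t θ ⟨hr.1, hr.2.1⟩ hX0]
  rw [h4]
  refine h3.trans ?_
  -- numerical comparison
  have hTA : (1 + |t|) ^ (1 + η) ≤ (1 + |t|) ^ A :=
    Real.rpow_le_rpow_of_exponent_le hT (by linarith)
  have hTB : (1 + |t|) ^ (3 + η) ≤ (1 + |t|) ^ B :=
    Real.rpow_le_rpow_of_exponent_le hT (by linarith)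
  have h2R : (2 * R) ^ (2 * η) ≤ 4 * X ^ (2 * η) := by
    rw [Real.mul_rpow (by norm_num) hR0.le]
    have e1 : (2 : ℝ) ^ (2 * η) ≤ 4 := by
      calc (2 : ℝ) ^ (2 * η) ≤ 2 ^ (2 : ℝ) :=
            Real.rpow_le_rpow_of_exponent_le (by norm_num) (by linarith)
        _ = 4 := by norm_num
    have e2 : R ^ (2 * η) ≤ X ^ (2 * η) := Real.rpow_le_rpow hR0.le hRX (by positivity)
    exact mul_le_mul e1 e2 (by positivity) (by norm_num)
  have hXR : (X / (2 * R)) ^ (1 + η) ≤ X / (2 * R) * X ^ η := by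
    rw [Real.rpow_add (by positivity), Real.rpow_one]
    apply mul_le_mul_of_nonneg_left _ (by positivity)
    apply Real.rpow_le_rpow (by positivity) _ hη0.le
    apply div_le_self hX0.le
    linarith
  have hXe : X ^ (2 * η) * X ^ η ≤ X ^ ε := by
    rw [← Real.rpow_add hX0]
    exact Real.rpow_le_rpow_of_exponent_le hX1 (by linarith)
  have hA0 : 0 ≤ (1 + |t|) ^ A := by positivity
  have hB0 : 0 ≤ (1 + |t|) ^ B := by positivity
  calc C2 * ((C1 * (1 + |t|) ^ (1 + η) * (2 * R) + C1 * (1 + |t|) ^ (3 + η)) *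
        (2 * R) ^ (2 * η) * (X / (2 * R)) ^ (1 + η))
      ≤ C2 * ((C1 * (1 + |t|) ^ A * (2 * R) + C1 * (1 + |t|) ^ B) *
        (4 * X ^ (2 * η)) * (X / (2 * R) * X ^ η)) := by gcongr
    _ = C2 * C1 * 4 * (X ^ (2 * η) * X ^ η) *
        (X * (1 + |t|) ^ A + X / R * (1 + |t|) ^ B / 2) := by
        field_simp
    _ ≤ C2 * C1 * 4 * X ^ ε * (X * (1 + |t|) ^ A + X / R * (1 + |t|) ^ B) := by
        gcongr
        have : 0 ≤ X / R * (1 + |t|) ^ B := by positivity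
        linarith

end Vale.Agent.P006.V2
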