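import Vale.Agent.P006.V2.GenErr
import Vale.Agent.P006.V2.FCIn
import Vale.Agent.P006.DISP.Theta

/-!
P006, block T1A: mean square over all primary `b` of the sums
`∑_{(a,b)=1} g̃(a) conj χ_a(b) N(a)^{it} U(N(a)/Y)`.
-/

namespace Vale.Agent.P006.V2

open Vale.Agent.P006 MeasureTheory Set Filter
open Vale.Agent.P006.KER (Nice)
open Vale.Agent.P006.DISP (Th)
open scoped ContDiff Topology BigOperators

theorem Rho3.mul_cube' {ρ : O → ℂ} (hρ : Rho3 ρ) {b m : O} (hb : Primary b) (hm : Primary m) :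
    ρ (b * m ^ 3) = ρ b := by
  revert hm
  revert m
  have key : ∀ m, Primary m → ρ (b * m ^ 3) = ρ b := by
    apply Primary.induction_pow
    · simp
    · intro r p v hr hp hpr hv ih
      rw [← ih]
      obtain ⟨w, s, hps, hs⟩ := WfDvdMonoid.max_power_factor (hb.mul (hr.pow 3)).ne_zero
        hp.2.irreducible
      have hs1 : Primary s := (hp.1.pow w).of_mul (by rw [← hs]; exact hb.mul (hr.pow 3))
      have h1 : b * (r * p ^ v) ^ 3 = s * p ^ (w + 3 * v) := by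
        calc b * (r * p ^ v) ^ 3 = b * r ^ 3 * p ^ (3 * v) := by ring
          _ = _ := by rw [hs]; ring
      have h2 : b * r ^ 3 = s * p ^ w := by rw [hs]; ring
      rw [h1, h2, hρ.mod hs1 hp hps, hρ.mod hs1 hp hps w]
      congr 3
      omega
  exact fun {m} hm => key m hm

theorem rho_dichotomy {ρ : O → ℂ} (hρ : Rho3 ρ) : ∀ b, Primary b →
    (∃ b1 m, InP b1 ∧ Primary m ∧ b = b1 * m ^ 3) ∨ ρ b = 0 := by
  apply Primary.induction_pow
  · exact Or.inl ⟨1, 1, ⟨primary_one, squarefree_one⟩, primary_one, by simp⟩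
  · intro r p v hr hp hpr hv ih
    have h3 : v % 3 < 3 := Nat.mod_lt _ (by norm_num)
    have h4 : v % 3 = 0 ∨ v % 3 = 1 ∨ v % 3 = 2 := by omega
    rcases ih with ⟨b1, m, h1, hm, he⟩ | h0
    · rcases h4 with h | h | h
      · left
        refine ⟨b1, m * p ^ (v / 3), h1, hm.mul (hp.1.pow _), ?_⟩
        have : p ^ v = (p ^ (v / 3)) ^ 3 := by rw [← pow_mul]; congr 1; omega
        rw [he, this]; ring
      · left
        have hpb : ¬ p ∣ b1 := fun h5 => hpr (by rw [he]; exact h5.mul_right _)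
        refine ⟨b1 * p, m * p ^ (v / 3), ⟨h1.1.mul hp.1, ?_⟩, hm.mul (hp.1.pow _), ?_⟩
        · rw [squarefree_mul_iff]
          exact ⟨(hp.coprime hpb).symm.isRelPrime, h1.2, hp.2.irreducible.squarefree⟩
        · have : p ^ v = p * (p ^ (v / 3)) ^ 3 := by
            rw [← pow_mul, ← pow_succ']; congr 1; omega
          rw [he, this]; ring
      · right
        rw [hρ.mod hr hp hpr, h, hρ.mul_sq r p hr hp hpr]
    · right
      rw [hρ.mod hr hp hpr]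
      rcases h4 with h | h | h
      · rw [h, pow_zero, mul_one, h0]
      · rw [h, pow_one, hρ.mul_prime r p hr hp hpr, h0, mul_zero]
      · rw [h, hρ.mul_sq r p hr hp hpr]

/-- closed form of the residues -/
theorem rho_eq_Th {ρ : O → ℂ} (hρ : Rho3 ρ) {b : O} (hb : Primary b) : ρ b = ρ 1 * Th b := by
  by_cases h : ∃ b1 m, InP b1 ∧ Primary m ∧ b = b1 * m ^ 3
  · obtain ⟨b1, m, h1, hm, rfl⟩ := h
    rw [hρ.mul_cube' h1.1 hm, DISP.Th_eq h1 hm, rho_eq hρ.toRho b1 h1]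
    ring
  · rw [DISP.Th_eq_zero h hb.ne_zero, mul_zero]
    rcases rho_dichotomy hρ b hb with h1 | h1
    · exact absurd h1 h
    · exact h1

/-- `∑_{(a,b)=1} g̃(a) conj (b/a)_3 N(a)^{it} U(N(a)/Y)` -/
noncomputable def TB (U : ℝ → ℂ) (t : ℝ) (b : O) (Y : ℝ) : ℂ :=
  ∑' a : O, open Classical in
    if Primary a ∧ IsCoprime a b then
      gt 1 a * (starRingEnd ℂ) (toC (sym b a)) * ((N a : ℂ) ^ ((t : ℂ) * Complex.I) * U (N a / Y))
    else 0

/-- its main term -/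
noncomputable def MB (U : ℝ → ℂ) (t : ℝ) (z : ℂ) (b : O) (Y : ℝ) : ℂ :=
  z * (hfac b : ℂ) * Th b *
    ((Y : ℂ) ^ ((5 / 6 : ℂ) + t * Complex.I) * mellin U ((5 / 6 : ℂ) + t * Complex.I))

theorem TB_eq (U : ℝ → ℂ) (t : ℝ) (b : O) {Y : ℝ} (hY : 0 < Y) :
    TB U t b Y = (Y : ℂ) ^ ((t : ℂ) * Complex.I) * SA (KER.tw U t) b b Y := by
  rw [TB, SA, ← tsum_mul_left]
  refine tsum_congr fun a => ?_
  rw [sm]
  by_cases ha : Primary a ∧ IsCoprime a b
  · have hN : (0 : ℝ) < N a := N_pos_real ha.1.ne_zero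
    rw [if_pos ha, if_pos ⟨ha.1, ha.2⟩, KER.tw_eq_cpow U t (by positivity),
      gt_twist_one ha.1.ne_zero ha.2.symm]
    have := TI.cast_cpow_eq hN hY ((t : ℂ) * Complex.I)
    rw [Complex.ofReal_natCast] at this
    rw [this]
    ring
  · rw [if_neg ha, if_neg (show ¬ ok b a from ha), mul_zero]

theorem norm_TB_sub (U : ℝ → ℂ) (t : ℝ) {θ : O → ℂ} (hθ : Rho3 θ) {b : O} (hb : Primary b) {Y : ℝ}
    (hY : 0 < Y) :
    ‖TB U t b Y - MB U t (θ 1) b Y‖ =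
      ‖Er (KER.tw U t) θ (mellin U ((5 / 6 : ℂ) + t * Complex.I)) b b Y‖ := by
  have h1 : TB U t b Y - MB U t (θ 1) b Y = (Y : ℂ) ^ ((t : ℂ) * Complex.I) *
      Er (KER.tw U t) θ (mellin U ((5 / 6 : ℂ) + t * Complex.I)) b b Y := by
    rw [TB_eq U t b hY, MB, cpow_split hY, Er, mn, rho_eq_Th hθ hb]
    ring
  rw [h1, norm_mul, norm_cpow_I hY, one_mul]

/-- **General modulus.** Mean square over all primary `b` (any exponents), moving lengths. -/
theorem TB_meanSq {θ : O → ℂ} (h : FCHyp θ) (hθ : Rho3 θ) {U : ℝ → ℂ} {a b : ℝ} (H : Nice U a b)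
    {η : ℝ} (hη : 0 < η) (hη1 : η ≤ 2 / 3) :
    ∃ C : ℝ, 0 ≤ C ∧ ∀ R Y t : ℝ, 1 ≤ R → 0 < Y → ∀ (S : Finset O) (y : O → ℝ),
      (∀ m ∈ S, Primary m ∧ (N m : ℝ) ≤ R) → (∀ m ∈ S, Y ≤ y m ∧ y m ≤ 2 * Y) →
      ∑ m ∈ S, ‖TB U t m (y m) - MB U t (θ 1) m (y m)‖ ^ 2 ≤
        C * (1 + |t|) ^ (3 + η) * R ^ (1 + η) * Y ^ (1 + η) := by
  obtain ⟨S0, hS0, hUS⟩ := TI.exists_norm_le H
  obtain ⟨C1, hC1, h1⟩ := FC_ms h (Q := Primary) (fun m hm => hm) (norm_nonneg (θ 1))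
    (fun m hm => norm_rho_le3 hθ m hm) H hη hη1
  obtain ⟨C2, hC2, h2⟩ := meanSqG (α := 1 + η) (η := η) (by linarith) hη
  refine ⟨C2 * (2 * C1), by positivity, ?_⟩
  intro R Y t hR hY S y hS hy
  have hT : 1 ≤ 1 + |t| := by have := abs_nonneg t; linarith
  have hT0 : 0 < 1 + |t| := by linarith
  set c : ℂ := mellin U ((5 / 6 : ℂ) + t * Complex.I) with hc
  have h3 := h2 (fun m D Y => ‖Er (KER.tw U t) θ c m D Y‖) (Er_recG (Wt_tw H hUS t) hθ c)
    (2 * C1 * (1 + |t|) ^ (3 + η)) (by positivity) (by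
      intro R Y hR hY S y hS hy
      refine (h1 R Y t hR hY S y (fun m hm => ⟨(hS m hm).1, (hS m hm).2.2⟩) hy).trans ?_
      have hR0 : 0 < R := by linarith
      have e1 : (1 + |t|) ^ (1 + η) ≤ (1 + |t|) ^ (3 + η) :=
        Real.rpow_le_rpow_of_exponent_le hT (by linarith)
      have e2 : R ^ (1 + η) = R * R ^ η := by rw [Real.rpow_add hR0, Real.rpow_one]
      rw [e2]
      have e3 : C1 * (1 + |t|) ^ (1 + η) * R + C1 * (1 + |t|) ^ (3 + η) ≤
          2 * C1 * (1 + |t|) ^ (3 + η) * R := by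
        have e4 : C1 * (1 + |t|) ^ (1 + η) * R ≤ C1 * (1 + |t|) ^ (3 + η) * R := by gcongr
        have e5 : C1 * (1 + |t|) ^ (3 + η) * 1 ≤ C1 * (1 + |t|) ^ (3 + η) * R := by gcongr
        linarith
      calc (C1 * (1 + |t|) ^ (1 + η) * R + C1 * (1 + |t|) ^ (3 + η)) * R ^ η * Y ^ (1 + η)
          ≤ (2 * C1 * (1 + |t|) ^ (3 + η) * R) * R ^ η * Y ^ (1 + η) := by gcongr
        _ = _ := by ring)
  have h4 := h3 R Y hR hY S y (fun m hm => ⟨(hS m hm).1, trivial, (hS m hm).2⟩) hy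
  have h5 : ∑ m ∈ S, ‖TB U t m (y m) - MB U t (θ 1) m (y m)‖ ^ 2 =
      ∑ m ∈ S, ‖Er (KER.tw U t) θ c m (id m) (y m)‖ ^ 2 := by
    refine Finset.sum_congr rfl fun m hm => ?_
    rw [norm_TB_sub U t hθ (hS m hm).1 (hY.trans_le (hy m hm).1), id]
  rw [h5]
  refine h4.trans (le_of_eq ?_)
  ring

/-- the untwisted case -/
theorem TB_zero (U : ℝ → ℂ) (b : O) (Y : ℝ) : TB U 0 b Y = ∑' a : O, open Classical in
    if Primary a ∧ IsCoprime a b then gt 1 a * (starRingEnd ℂ) (toC (sym b a)) * U (N a / Y)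
    else 0 := by
  rw [TB]
  refine tsum_congr fun a => ?_
  simp

theorem MB_zero (U : ℝ → ℂ) (z : ℂ) (b : O) {Y : ℝ} (hY : 0 < Y) :
    MB U 0 z b Y = z * (hfac b : ℂ) * Th b * (((Y ^ (5 / 6 : ℝ) : ℝ) : ℂ) * mellin U (5 / 6)) := by
  rw [MB, Complex.ofReal_cpow hY.le]
  simp

end Vale.Agent.P006.V2
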