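import Vale.Agent.P006.V2.Sums

/-!
P006, block T1A: main terms and error terms.
-/

namespace Vale.Agent.P006.V2

open Vale.Agent.P006
open scoped BigOperators
open Filter Topology

/-- `∏_{p ∣ D} (1 + 1/N(p))⁻¹` -/
noncomputable def hfac (D : O) : ℝ := ∏ p ∈ pdv D, (1 + 1 / (N p : ℝ))⁻¹

@[simp] theorem hfac_one : hfac 1 = 1 := by rw [hfac, pdv_one, Finset.prod_empty]

theorem pdv_mul_prime {D p : O} (hD : D ≠ 0) (hp : PrP p) : pdv (D * p) = insert p (pdv D) := by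
  classical
  ext q
  rw [Finset.mem_insert, mem_pdv (mul_ne_zero hD hp.ne_zero), mem_pdv hD]
  constructor
  · rintro ⟨h1, h2, h3⟩
    rcases h2.dvd_or_dvd h3 with h4 | h4
    · exact Or.inr ⟨h1, h2, h4⟩
    · exact Or.inl (hp.eq_of_dvd ⟨h1, h2⟩ h4)
  · rintro (rfl | ⟨h1, h2, h3⟩)
    · exact ⟨hp.1, hp.2, dvd_mul_left _ _⟩
    · exact ⟨h1, h2, h3.trans (dvd_mul_right _ _)⟩

theorem hfac_mul_prime {D p : O} (hp : PrP p) (hD : ¬ p ∣ D) :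
    hfac (D * p) = hfac D * (1 + 1 / (N p : ℝ))⁻¹ := by
  classical
  have hD0 : D ≠ 0 := by rintro rfl; exact hD (dvd_zero p)
  rw [hfac, pdv_mul_prime hD0 hp, Finset.prod_insert, ← hfac, mul_comm]
  rw [mem_pdv hD0]; tauto

theorem hfac_pos (D : O) : 0 < hfac D := by
  apply Finset.prod_pos
  intro p _
  positivity

theorem hfac_le_one (D : O) : hfac D ≤ 1 := by
  apply Finset.prod_le_one
  · intro p _; positivity
  · intro p _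
    apply inv_le_one_of_one_le₀
    have : (0 : ℝ) ≤ 1 / N p := by positivity
    linarith

/-- the local relations of the residues -/
structure Rho (ρ : O → ℂ) : Prop where
  mul_prime : ∀ s p : O, Primary s → PrP p → ¬ p ∣ s →
    ρ (s * p) = (((N p : ℝ) ^ (-(1 / 6) : ℝ) : ℝ) : ℂ) * (starRingEnd ℂ) (gt s p) * ρ s
  mul_sq : ∀ s p : O, Primary s → PrP p → ¬ p ∣ s → ρ (s * p ^ 2) = 0

/-- the main term -/
noncomputable def mn (ρ : O → ℂ) (c : ℂ) (m D : O) (Y : ℝ) : ℂ :=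
  ρ m * ((hfac D : ℝ) : ℂ) * ((Y ^ (5 / 6 : ℝ) : ℝ) : ℂ) * c

/-- the error term -/
noncomputable def Er (W : ℝ → ℂ) (ρ : O → ℂ) (c : ℂ) (m D : O) (Y : ℝ) : ℂ :=
  SA W m D Y - mn ρ c m D Y

variable {W : ℝ → ℂ} {M B : ℝ} {ρ : O → ℂ} {c : ℂ}

theorem Np_pos {p : O} (hp : PrP p) : (0 : ℝ) < N p := N_pos_real hp.ne_zero

theorem mul_conj_gt {s p : O} (hp : PrP p) (hs : ¬ p ∣ s) :
    gt s p * (starRingEnd ℂ) (gt s p) = 1 := by
  rw [Complex.mul_conj, Complex.normSq_eq_norm_sq, norm_gt_prime hp hs]; simp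

theorem div_rpow_pow {Y x : ℝ} (hY : 0 < Y) (hx : 0 < x) (n : ℕ) (a : ℝ) :
    (Y / x ^ n) ^ a = Y ^ a * x ^ (-(n * a)) := by
  rw [Real.div_rpow hY.le (by positivity), div_eq_mul_inv, ← Real.rpow_natCast x n,
    ← Real.rpow_mul hx.le, ← Real.rpow_neg hx.le]

theorem mn_up (hρ : Rho ρ) {s D p : O} (hs0 : Primary s) (hp : PrP p) (hs : ¬ p ∣ s)
    (hD : ¬ p ∣ D) {Y : ℝ} (hY : 0 < Y) :
    mn ρ c s D Y = mn ρ c s (D * p) Y + gt s p * mn ρ c (s * p) (D * p) (Y / N p) := by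
  have hN := Np_pos hp
  have h1 : (Y / (N p : ℝ)) ^ (5 / 6 : ℝ) = Y ^ (5 / 6 : ℝ) * (N p : ℝ) ^ (-(5 / 6) : ℝ) := by
    have := div_rpow_pow hY hN 1 (5 / 6)
    rw [pow_one] at this
    rw [this]; norm_num
  have h2 : (N p : ℝ) ^ (-(1 / 6) : ℝ) * (N p : ℝ) ^ (-(5 / 6) : ℝ) = 1 / N p := by
    rw [← Real.rpow_add hN]; norm_num [Real.rpow_neg_one]
  have h3 : (1 + 1 / (N p : ℝ))⁻¹ * (1 + 1 / N p) = 1 := inv_mul_cancel₀ (by positivity)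
  have h2' : (((N p : ℝ) ^ (-(1 / 6) : ℝ) : ℝ) : ℂ) * (((N p : ℝ) ^ (-(5 / 6) : ℝ) : ℝ) : ℂ) =
      ((1 / (N p : ℝ) : ℝ) : ℂ) := by rw [← Complex.ofReal_mul, h2]
  have h3' : (((1 + 1 / (N p : ℝ))⁻¹ : ℝ) : ℂ) * (1 + ((1 / (N p : ℝ) : ℝ) : ℂ)) = 1 := by
    rw [← Complex.ofReal_one, ← Complex.ofReal_add, ← Complex.ofReal_mul, h3]
  have h4 := mul_conj_gt hp hs
  rw [mn, mn, mn, hρ.mul_prime s p hs0 hp hs, hfac_mul_prime hp hD, h1]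
  rw [Complex.ofReal_mul (hfac D), Complex.ofReal_mul (Y ^ (5 / 6 : ℝ))]
  set u := (((N p : ℝ) ^ (-(1 / 6) : ℝ) : ℝ) : ℂ)
  set v := (((N p : ℝ) ^ (-(5 / 6) : ℝ) : ℝ) : ℂ)
  set w := (((1 + 1 / (N p : ℝ))⁻¹ : ℝ) : ℂ)
  set z := ((1 / (N p : ℝ) : ℝ) : ℂ)
  set y := ((Y ^ (5 / 6 : ℝ) : ℝ) : ℂ)
  set h := ((hfac D : ℝ) : ℂ)
  linear_combination (-(ρ s * h * y * c * w * u * v)) * h4 - (ρ s * h * y * c * w) * h2' -
    (ρ s * h * y * c) * h3'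

theorem mn_down (hρ : Rho ρ) {s D p : O} (hs0 : Primary s) (hp : PrP p) (hs : ¬ p ∣ s)
    (hD : ¬ p ∣ D) {Y : ℝ} (hY : 0 < Y) :
    mn ρ c (s * p) D Y = mn ρ c (s * p) (D * p) Y +
      gt (s * p) (p ^ 2) * mn ρ c s (D * p) (Y / (N p : ℝ) ^ 2) := by
  have hN := Np_pos hp
  have h1 : (Y / (N p : ℝ) ^ 2) ^ (5 / 6 : ℝ) = Y ^ (5 / 6 : ℝ) * (N p : ℝ) ^ (-(5 / 3) : ℝ) := by
    rw [div_rpow_pow hY hN 2 (5 / 6)]; norm_num
  have h2 : √(N p : ℝ) * (N p : ℝ) ^ (-(5 / 3) : ℝ) = 1 / N p * (N p : ℝ) ^ (-(1 / 6) : ℝ) := by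
    have h0 : 1 / (N p : ℝ) = (N p : ℝ) ^ (-1 : ℝ) := by rw [Real.rpow_neg_one, one_div]
    rw [h0, Real.sqrt_eq_rpow, ← Real.rpow_add hN, ← Real.rpow_add hN]
    norm_num
  have h3 : (1 + 1 / (N p : ℝ))⁻¹ * (1 + 1 / N p) = 1 := inv_mul_cancel₀ (by positivity)
  have h2' : ((√(N p : ℝ) : ℝ) : ℂ) * (((N p : ℝ) ^ (-(5 / 3) : ℝ) : ℝ) : ℂ) =
      ((1 / (N p : ℝ) : ℝ) : ℂ) * (((N p : ℝ) ^ (-(1 / 6) : ℝ) : ℝ) : ℂ) := by
    rw [← Complex.ofReal_mul, h2, Complex.ofReal_mul]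
  have h3' : (((1 + 1 / (N p : ℝ))⁻¹ : ℝ) : ℂ) * (1 + ((1 / (N p : ℝ) : ℝ) : ℂ)) = 1 := by
    rw [← Complex.ofReal_one, ← Complex.ofReal_add, ← Complex.ofReal_mul, h3]
  rw [mn, mn, mn, hρ.mul_prime s p hs0 hp hs, hfac_mul_prime hp hD, h1, gt_sq hp]
  rw [Complex.ofReal_mul (hfac D), Complex.ofReal_mul (Y ^ (5 / 6 : ℝ))]
  set u := (((N p : ℝ) ^ (-(1 / 6) : ℝ) : ℝ) : ℂ)
  set v := (((N p : ℝ) ^ (-(5 / 3) : ℝ) : ℝ) : ℂ)
  set w := (((1 + 1 / (N p : ℝ))⁻¹ : ℝ) : ℂ)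
  set z := ((1 / (N p : ℝ) : ℝ) : ℂ)
  set y := ((Y ^ (5 / 6 : ℝ) : ℝ) : ℂ)
  set h := ((hfac D : ℝ) : ℂ)
  set g := (starRingEnd ℂ) (gt s p)
  linear_combination (-(ρ s * h * y * c * w * g)) * h2' - (ρ s * h * y * c * g * u) * h3'

theorem Er_up (hW : Wt W M B) (hρ : Rho ρ) {s D p : O} (hs0 : Primary s) (hp : PrP p)
    (hs : ¬ p ∣ s) (hD : ¬ p ∣ D) {Y : ℝ} (hY : 0 < Y) :
    Er W ρ c s D Y = Er W ρ c s (D * p) Y + gt s p * Er W ρ c (s * p) (D * p) (Y / N p) := by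
  rw [Er, Er, Er, SA_up hW hp hs hD hY, mn_up hρ hs0 hp hs hD hY]; ring

theorem Er_down (hW : Wt W M B) (hρ : Rho ρ) {s D p : O} (hs0 : Primary s) (hp : PrP p)
    (hs : ¬ p ∣ s) (hD : ¬ p ∣ D) {Y : ℝ} (hY : 0 < Y) :
    Er W ρ c (s * p) D Y = Er W ρ c (s * p) (D * p) Y +
      gt (s * p) (p ^ 2) * Er W ρ c s (D * p) (Y / (N p : ℝ) ^ 2) := by
  rw [Er, Er, Er, SA_down hW hp hs hD hY, mn_down hρ hs0 hp hs hD hY]; ring

theorem Er_sq (hW : Wt W M B) (hρ : Rho ρ) {s D p : O} (hs0 : Primary s) (hp : PrP p)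
    (hs : ¬ p ∣ s) (hD : ¬ p ∣ D) {Y : ℝ} (hY : 0 < Y) :
    Er W ρ c (s * p ^ 2) D Y = Er W ρ c (s * p ^ 2) (D * p) Y -
      √(N p : ℝ) * Er W ρ c (s * p ^ 2) (D * p) (Y / (N p : ℝ) ^ 3) := by
  rw [Er, Er, Er, SA_sq hW hp hs hD hY, mn, mn, mn, hρ.mul_sq s p hs0 hp hs]; ring

/-- crude bound for small `Y` -/
theorem SA_small (hW : Wt W M B) (m D : O) : ∃ C : ℝ, 0 ≤ C ∧ ∀ Y : ℝ, 0 < Y → Y ≤ 1 →
    ‖SA W m D Y‖ ≤ C * Y ^ (5 / 6 : ℝ) := by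
  classical
  set T : Finset O := (finite_N_le M).toFinset with hT
  have hB : 0 ≤ B := (norm_nonneg _).trans (hW.bdd 0)
  have hM := hW.M_pos
  refine ⟨(∑ a ∈ T, ‖gt m a‖ * B) * M ^ (5 / 6 : ℝ), ?_, ?_⟩
  · have : 0 ≤ ∑ a ∈ T, ‖gt m a‖ * B := Finset.sum_nonneg fun a _ => by positivity
    positivity
  intro Y hY hY1
  have h1 : SA W m D Y = ∑ a ∈ T, sm W m D Y a := by
    rw [SA]
    apply tsum_eq_sum
    intro a ha
    by_contra h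
    apply ha
    have := sm_support hW m D hY h
    rw [Set.mem_ofPred_eq] at this
    rw [hT, Set.Finite.mem_toFinset, Set.mem_ofPred_eq]
    nlinarith
  have h2 : ∀ a, ‖sm W m D Y a‖ ≤ ‖gt m a‖ * B := by
    intro a
    rw [sm]
    split_ifs
    · rw [norm_mul]
      exact mul_le_mul_of_nonneg_left (hW.bdd _) (norm_nonneg _)
    · rw [norm_zero]; positivity
  by_cases hYM : M * Y < 1
  · have h3 : SA W m D Y = 0 := by
      rw [SA]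
      have : ∀ a, sm W m D Y a = 0 := by
        intro a
        by_contra h
        have h4 := sm_support hW m D hY h
        rw [Set.mem_ofPred_eq] at h4
        rw [sm] at h
        split_ifs at h with h5
        · have := h5.1.one_le_N'
          linarith
        · exact h rfl
      rw [tsum_congr this, tsum_zero]
    rw [h3, norm_zero]
    have : 0 ≤ ∑ a ∈ T, ‖gt m a‖ * B := Finset.sum_nonneg fun a _ => by positivity
    positivity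
  · rw [not_lt] at hYM
    have h4 : 1 ≤ M ^ (5 / 6 : ℝ) * Y ^ (5 / 6 : ℝ) := by
      rw [← Real.mul_rpow hM.le hY.le]
      exact Real.one_le_rpow hYM (by norm_num)
    have h5 : 0 ≤ ∑ a ∈ T, ‖gt m a‖ * B := Finset.sum_nonneg fun a _ => by positivity
    rw [h1]
    calc ‖∑ a ∈ T, sm W m D Y a‖ ≤ ∑ a ∈ T, ‖gt m a‖ * B :=
          (norm_sum_le _ _).trans (Finset.sum_le_sum fun a _ => h2 a)
      _ = (∑ a ∈ T, ‖gt m a‖ * B) * 1 := (mul_one _).symm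
      _ ≤ (∑ a ∈ T, ‖gt m a‖ * B) * (M ^ (5 / 6 : ℝ) * Y ^ (5 / 6 : ℝ)) :=
          mul_le_mul_of_nonneg_left h4 h5
      _ = _ := by ring

/-- the error terms satisfy the recursion -/
theorem Er_rec (hW : Wt W M B) (hρ : Rho ρ) (c : ℂ) :
    RecI (fun m D Y => ‖Er W ρ c m D Y‖) where
  nonneg := fun _ _ _ => norm_nonneg _
  ineq := by
    intro s D p hs0 hp hs hD Y hY
    have hN := Np_pos hp
    have h1 := Er_down (c := c) hW hρ hs0 hp hs hD hY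
    have h2 := Er_up (c := c) hW hρ hs0 hp hs hD (Y := Y / (N p : ℝ) ^ 2) (by positivity)
    have h3 : Y / (N p : ℝ) ^ 2 / N p = Y / (N p : ℝ) ^ 3 := by
      rw [div_div, ← pow_succ]
    rw [h3] at h2
    have h4 : Er W ρ c (s * p) (D * p) Y = Er W ρ c (s * p) D Y -
        gt (s * p) (p ^ 2) * (Er W ρ c s D (Y / (N p : ℝ) ^ 2) -
          gt s p * Er W ρ c (s * p) (D * p) (Y / (N p : ℝ) ^ 3)) := by
      rw [h1, h2]; ring
    have h5 : ‖gt s p‖ = 1 := norm_gt_prime hp hs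
    have h6 : ‖gt (s * p) (p ^ 2)‖ = √(N p : ℝ) := by
      rw [gt_sq hp, norm_mul, RCLike.norm_conj, h5, mul_one, Complex.norm_real,
        Real.norm_of_nonneg (Real.sqrt_nonneg _)]
    rw [h4]
    refine (norm_sub_le _ _).trans ?_
    rw [norm_mul, h6, add_assoc]
    refine add_le_add le_rfl ?_
    rw [← mul_add]
    refine mul_le_mul_of_nonneg_left ?_ (Real.sqrt_nonneg _)
    refine (norm_sub_le _ _).trans ?_
    rw [norm_mul, h5, one_mul]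
  small := by
    intro s D _
    obtain ⟨C, hC0, hC⟩ := SA_small hW s D
    refine ⟨C + ‖ρ s * ((hfac D : ℝ) : ℂ)‖ * ‖c‖, fun Y hY hY1 => ?_⟩
    simp only [Er]
    refine (norm_sub_le _ _).trans ?_
    rw [add_mul]
    refine add_le_add (hC Y hY hY1) (le_of_eq ?_)
    rw [mn, norm_mul, norm_mul, Complex.norm_real, Real.norm_of_nonneg (by positivity)]
    ring

end Vale.Agent.P006.V2
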