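import Vale.Agent.P006.V2.Prim

/-!
P006, block T1A: explicit solution of the recursion.
-/

namespace Vale.Agent.P006.V2

open Vale.Agent.P006
open scoped ENNReal BigOperators

/-- index set of the explicit formula: `x = (t, s, k)` with `t * s = r` and `k` composed of
primes of `r` -/
def Idx (r : O) (x : O × O × O) : Prop :=
  Primary x.1 ∧ x.1 * x.2.1 = r ∧ Primary x.2.2 ∧ ∀ q, PrP q → q ∣ x.2.2 → q ∣ r

/-- a term of the explicit formula -/
noncomputable def term (F : O → O → ℝ → ℝ) (e : O) (Y : ℝ) (x : O × O × O) : ℝ≥0∞ :=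
  ENNReal.ofReal (√(N x.1) * √(N x.2.2) *
    F (x.2.1 * e) 1 (Y / ((N x.1 : ℝ) ^ 2 * (N x.2.2 : ℝ) ^ 3)))

/-- the map used in the induction step -/
def stepMap (p : O) (y : ℕ × Bool × (O × O × O)) : O × O × O :=
  if y.2.1 then (y.2.2.1, y.2.2.2.1 * p, p ^ y.1 * y.2.2.2.2)
  else (y.2.2.1 * p, y.2.2.2.1, p ^ y.1 * y.2.2.2.2)

theorem stepMap_mem {r p : O} (hp : PrP p) (j : ℕ) (b : Bool) {x : O × O × O} (hx : Idx r x) :
    Idx (r * p) (stepMap p (j, b, x)) := by
  obtain ⟨h1, h2, h3, h4⟩ := hx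
  have hk : Primary (p ^ j * x.2.2) := (hp.1.pow j).mul h3
  have hq : ∀ q, PrP q → q ∣ p ^ j * x.2.2 → q ∣ r * p := by
    intro q hq hd
    rcases hq.2.dvd_or_dvd hd with h | h
    · exact (hq.2.dvd_of_dvd_pow h).trans (dvd_mul_left p r)
    · exact (h4 q hq h).trans (dvd_mul_right r p)
  cases b
  · exact ⟨h1.mul hp.1, by simp only [stepMap]; rw [← h2]; simp; ring, hk, hq⟩
  · exact ⟨h1, by simp only [stepMap]; rw [← h2]; simp; ring, hk, hq⟩

theorem pow_mul_inj {p : O} (hp : PrP p) {i j : ℕ} {k l : O} (hk : ¬ p ∣ k) (hl : ¬ p ∣ l)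
    (h : p ^ i * k = p ^ j * l) : i = j ∧ k = l := by
  have key : ∀ {i j : ℕ} {k l : O}, ¬ p ∣ k → p ^ i * k = p ^ j * l → i ≤ j → i = j ∧ k = l := by
    intro i j k l hk h hij
    obtain ⟨m, rfl⟩ := Nat.exists_eq_add_of_le hij
    rw [pow_add, mul_assoc] at h
    have h1 := mul_left_cancel₀ (pow_ne_zero i hp.ne_zero) h
    cases m with
    | zero => simpa using h1
    | succ m =>
      exfalso
      apply hk
      rw [h1, pow_succ]
      exact ⟨p ^ m * l, by ring⟩
  rcases le_total i j with hij | hij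
  · exact key hk h hij
  · obtain ⟨h1, h2⟩ := key hl h.symm hij
    exact ⟨h1.symm, h2.symm⟩

theorem stepMap_inj {r p : O} (hp : PrP p) (hpr : ¬ p ∣ r) :
    Function.Injective (fun y : ℕ × Bool × {x // Idx r x} =>
      (⟨stepMap p (y.1, y.2.1, y.2.2.1), stepMap_mem hp _ _ y.2.2.2⟩ : {x // Idx (r * p) x})) := by
  rintro ⟨i, b, ⟨⟨t, s, k⟩, h⟩⟩ ⟨i', b', ⟨⟨t', s', k'⟩, h'⟩⟩ heq
  simp only [Subtype.mk.injEq] at heq
  have ht : ¬ p ∣ t := fun hh => hpr (hh.trans ⟨s, h.2.1.symm⟩)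
  have ht' : ¬ p ∣ t' := fun hh => hpr (hh.trans ⟨s', h'.2.1.symm⟩)
  have hk : ¬ p ∣ k := fun hh => hpr (h.2.2.2 p hp hh)
  have hk' : ¬ p ∣ k' := fun hh => hpr (h'.2.2.2 p hp hh)
  cases b <;> cases b'
  · simp only [stepMap, Prod.mk.injEq, Bool.false_eq_true, if_false] at heq
    obtain ⟨e1, e2, e3⟩ := heq
    obtain ⟨e4, e5⟩ := pow_mul_inj hp hk hk' e3
    have e6 := mul_right_cancel₀ hp.ne_zero e1
    subst e4 e5 e6 e2
    rfl
  · exfalso
    simp only [stepMap, Prod.mk.injEq, Bool.false_eq_true, if_false, if_true] at heq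
    apply ht'
    rw [← heq.1]; exact dvd_mul_left _ _
  · exfalso
    simp only [stepMap, Prod.mk.injEq, Bool.false_eq_true, if_false, if_true] at heq
    apply ht
    rw [heq.1]; exact dvd_mul_left _ _
  · simp only [stepMap, Prod.mk.injEq, if_true] at heq
    obtain ⟨e1, e2, e3⟩ := heq
    obtain ⟨e4, e5⟩ := pow_mul_inj hp hk hk' e3
    have e6 := mul_right_cancel₀ hp.ne_zero e2
    subst e4 e5 e6 e1
    rfl

theorem sqrt_N_mul (x y : O) : √((N (x * y) : ℕ) : ℝ) = √(N x) * √(N y) := by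
  rw [N_mul, Nat.cast_mul, Real.sqrt_mul (Nat.cast_nonneg _)]

theorem sqrt_N_pow (x : O) (n : ℕ) : √((N (x ^ n) : ℕ) : ℝ) = √(N x) ^ n := by
  induction n with
  | zero => simp
  | succ n ih => rw [pow_succ, sqrt_N_mul, ih, pow_succ]

theorem term_step_true {F : O → O → ℝ → ℝ} {p : O} (e : O) (Y : ℝ) (j : ℕ)
    (x : O × O × O) :
    ENNReal.ofReal (√(N p) ^ j) * term F (e * p) (Y / (N p : ℝ) ^ (3 * j)) x =
      term F e Y (stepMap p (j, true, x)) := by
  rw [term, term, ← ENNReal.ofReal_mul (by positivity)]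
  congr 1
  simp only [stepMap, if_true]
  rw [sqrt_N_mul, sqrt_N_pow, show x.2.1 * p * e = x.2.1 * (e * p) by ring, N_mul, N_pow,
    div_div]
  have : (N p : ℝ) ^ (3 * j) * ((N x.1 : ℝ) ^ 2 * (N x.2.2 : ℝ) ^ 3) =
      (N x.1 : ℝ) ^ 2 * ((N p ^ j * N x.2.2 : ℕ) : ℝ) ^ 3 := by push_cast; ring
  rw [this]
  ring

theorem term_step_false {F : O → O → ℝ → ℝ} {p : O} (e : O) (Y : ℝ) (j : ℕ)
    (x : O × O × O) :
    ENNReal.ofReal (√(N p) ^ j) * (ENNReal.ofReal (√(N p)) *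
      term F e (Y / (N p : ℝ) ^ (3 * j + 2)) x) = term F e Y (stepMap p (j, false, x)) := by
  rw [term, term, ← ENNReal.ofReal_mul (by positivity), ← ENNReal.ofReal_mul (by positivity)]
  congr 1
  simp only [stepMap, Bool.false_eq_true, if_false]
  rw [sqrt_N_mul, sqrt_N_mul, sqrt_N_pow, N_mul, N_mul, N_pow, div_div]
  have : (N p : ℝ) ^ (3 * j + 2) * ((N x.1 : ℝ) ^ 2 * (N x.2.2 : ℝ) ^ 3) =
      ((N x.1 * N p : ℕ) : ℝ) ^ 2 * ((N p ^ j * N x.2.2 : ℕ) : ℝ) ^ 3 := by push_cast; ring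
  rw [this]
  ring

/-- **Explicit formula** (as an upper bound). -/
theorem RecI.explicit {F : O → O → ℝ → ℝ} (h : RecI F) : ∀ r, PP r → ∀ e : O, Primary e →
    (∀ q, PrP q → q ∣ r → ¬ q ∣ e) → ∀ Y : ℝ, 0 < Y →
    ENNReal.ofReal (F (r * e) r Y) ≤ ∑' x : {x // Idx r x}, term F e Y x := by
  apply PP.induction
  · intro e he hq Y hY
    have hx : Idx 1 (1, 1, 1) := ⟨primary_one, by simp, primary_one, fun q _ h => h⟩
    refine le_trans (le_of_eq ?_) (ENNReal.le_tsum (⟨(1, 1, 1), hx⟩ : {x // Idx 1 x}))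
    simp [term]
  · intro r p hr hp hpr ih e he hq Y hY
    have hpe : ¬ p ∣ e := hq p hp (dvd_mul_left p r)
    have hre : ¬ p ∣ r * e := fun hh => (hp.2.dvd_or_dvd hh).elim hpr hpe
    have hre0 : Primary (r * e) := hr.1.mul he
    have hN : (0 : ℝ) < N p := by exact_mod_cast N_pos hp.ne_zero
    have h1 := h.tsum_le hre0 hp hre hpr hY
    rw [show r * p * e = r * e * p by ring]
    refine h1.trans ?_
    -- bound each term
    have h2 : ∀ j : ℕ, ENNReal.ofReal ((√(N p)) ^ j *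
        (F (r * e * p) r (Y / (N p : ℝ) ^ (3 * j)) +
          √(N p) * F (r * e) r (Y / (N p : ℝ) ^ (3 * j + 2)))) ≤
        ∑' b : Bool, ∑' x : {x // Idx r x}, term F e Y (stepMap p (j, b, x.1)) := by
      intro j
      rw [tsum_bool, ENNReal.ofReal_mul (by positivity)]
      have h3 : ENNReal.ofReal (F (r * e * p) r (Y / (N p : ℝ) ^ (3 * j)) +
          √(N p) * F (r * e) r (Y / (N p : ℝ) ^ (3 * j + 2))) ≤
          ENNReal.ofReal (F (r * e * p) r (Y / (N p : ℝ) ^ (3 * j))) +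
          ENNReal.ofReal (√(N p)) * ENNReal.ofReal (F (r * e) r (Y / (N p : ℝ) ^ (3 * j + 2))) := by
        rw [← ENNReal.ofReal_mul (by positivity)]
        exact ENNReal.ofReal_add_le
      refine (mul_le_mul_right h3 _).trans ?_
      rw [mul_add, add_comm]
      refine add_le_add ?_ ?_
      · have h4 := ih e he (fun q hq1 hq2 => hq q hq1 (hq2.trans (dvd_mul_right r p)))
          (Y / (N p : ℝ) ^ (3 * j + 2)) (by positivity)
        refine (mul_le_mul_right (mul_le_mul_right h4 _) _).trans (le_of_eq ?_)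
        rw [← ENNReal.tsum_mul_left, ← ENNReal.tsum_mul_left]
        exact tsum_congr fun x => term_step_false e Y j x.1
      · have h4 := ih (e * p) (he.mul hp.1) (fun q hq1 hq2 hq3 => by
          rcases hq1.2.dvd_or_dvd hq3 with h5 | h5
          · exact hq q hq1 (hq2.trans (dvd_mul_right r p)) h5
          · rw [hp.eq_of_dvd hq1 h5] at hq2; exact hpr hq2)
          (Y / (N p : ℝ) ^ (3 * j)) (by positivity)
        rw [show r * (e * p) = r * e * p by ring] at h4
        refine (mul_le_mul_right h4 _).trans (le_of_eq ?_)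
        rw [← ENNReal.tsum_mul_left]
        exact tsum_congr fun x => term_step_true e Y j x.1
    refine (ENNReal.tsum_le_tsum h2).trans ?_
    have h5 : ∑' (j : ℕ) (b : Bool) (x : {x // Idx r x}), term F e Y (stepMap p (j, b, x.1)) =
        ∑' y : ℕ × Bool × {x // Idx r x}, term F e Y (stepMap p (y.1, y.2.1, y.2.2.1)) := by
      rw [ENNReal.tsum_prod']
      refine tsum_congr fun j => ?_
      rw [ENNReal.tsum_prod']
    rw [h5]
    exact ENNReal.tsum_comp_le_tsum_of_injective (stepMap_inj hp hpr) (fun x => term F e Y x.1)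

end Vale.Agent.P006.V2
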