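import Vale.Agent.P006.V2.Err

/-!
P006, block T1A: general frequencies (all exponents), explicit formula.
-/

namespace Vale.Agent.P006.V2

open Vale.Agent.P006
open scoped ENNReal BigOperators
open Filter Topology

theorem Primary.induction_pow {motive : O → Prop} (h1 : motive 1)
    (hmul : ∀ (r p : O) (v : ℕ), Primary r → PrP p → ¬ p ∣ r → 1 ≤ v → motive r →
      motive (r * p ^ v)) : ∀ r, Primary r → motive r := by
  intro r
  induction hn : N r using Nat.strong_induction_on generalizing r with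
  | _ n ih =>
    intro hr
    by_cases hr1 : r = 1
    · rw [hr1]; exact h1
    obtain ⟨p, hp, hpr⟩ := exists_primary_prime hr hr1
    obtain ⟨v, s, hps, hs⟩ := WfDvdMonoid.max_power_factor hr.ne_zero hp.2.irreducible
    have hv : 1 ≤ v := by
      by_contra hv
      have : v = 0 := by omega
      subst this
      rw [pow_zero, one_mul] at hs
      exact hps (hs ▸ hpr)
    have hs1 : Primary s := (hp.1.pow v).of_mul (by rw [← hs]; exact hr)
    have hN : N s < n := by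
      rw [← hn, hs, N_mul, N_pow]
      have h2 := hp.two_le
      have h3 : 0 < N s := N_pos hs1.ne_zero
      have h4 : 2 ≤ N p ^ v := h2.trans (Nat.le_self_pow (by omega) _)
      nlinarith
    have := ih (N s) hN s rfl hs1
    rw [hs, mul_comm]
    exact hmul s p v hs1 hp hps hv this

/-- cubefree elements -/
def CF (m : O) : Prop := ∀ q, PrP q → ¬ q ^ 3 ∣ m

theorem CF_one : CF 1 := fun q hq h =>
  hq.2.not_isUnit (isUnit_of_dvd_one ((dvd_pow_self q three_ne_zero).trans h))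

theorem CF_mul_pow {m p : O} (hm : CF m) (hp : PrP p) (hpm : ¬ p ∣ m) {μ : ℕ} (hμ : μ ≤ 2) :
    CF (m * p ^ μ) := by
  intro q hq h
  by_cases hqp : q ∣ p
  · have : q = p := hp.eq_of_dvd hq hqp
    subst this
    exact dvd_cancel_pow (n := μ) hp hpm ((pow_dvd_pow q (by omega)).trans h)
  · have h2 : IsCoprime (q ^ 3) (p ^ μ) := (hq.coprime hqp).pow
    exact hm q hq (h2.dvd_of_dvd_mul_right h)

/-- the options at a prime with exponent `v`: `(μ, τ, υ)` with `μ + τ + 2υ ≡ v mod 3` -/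
def opts (v : ℕ) : Finset (ℕ × ℕ × ℕ) :=
  if v % 3 = 0 then {(0, 0, 0), (1, 0, 1)} else if v % 3 = 1 then {(1, 0, 0), (0, 1, 0)}
  else {(2, 0, 0)}

theorem opts_spec {v : ℕ} (hv : 1 ≤ v) {o : ℕ × ℕ × ℕ} (ho : o ∈ opts v) :
    o.1 ≤ 2 ∧ o.1 + o.2.1 + 2 * o.2.2 + 3 * ((v - (o.1 + o.2.1 + 2 * o.2.2)) / 3) = v := by
  unfold opts at ho
  split_ifs at ho with h1 h2
  · simp only [Finset.mem_insert, Finset.mem_singleton] at ho
    rcases ho with rfl | rfl <;> simp <;> omega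
  · simp only [Finset.mem_insert, Finset.mem_singleton] at ho
    rcases ho with rfl | rfl <;> simp <;> omega
  · simp only [Finset.mem_singleton] at ho
    subst ho
    simp; omega

/-- index set of the general explicit formula: `x = (m, t, u, n, k)`, `m t u² n³ = b` -/
def IdxG (b : O) (x : O × O × O × O × O) : Prop :=
  (Primary x.1 ∧ CF x.1) ∧ Primary x.2.1 ∧ Primary x.2.2.1 ∧ Primary x.2.2.2.1 ∧
    (Primary x.2.2.2.2 ∧ ∀ q, PrP q → q ∣ x.2.2.2.2 → q ∣ b) ∧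
    x.1 * x.2.1 * x.2.2.1 ^ 2 * x.2.2.2.1 ^ 3 = b

noncomputable def termG (F : O → O → ℝ → ℝ) (e : O) (Y : ℝ) (x : O × O × O × O × O) : ℝ≥0∞ :=
  ENNReal.ofReal (√(N x.2.2.2.2) * √(N x.2.1) *
    F (x.1 * e) 1 (Y / ((N x.2.2.2.2 : ℝ) ^ 3 * (N x.2.1 : ℝ) ^ 2 * N x.2.2.1)))

/-- the map used in the induction step -/
def stepG (p : O) (v j : ℕ) (o : ℕ × ℕ × ℕ) (x : O × O × O × O × O) : O × O × O × O × O :=
  (p ^ o.1 * x.1, p ^ o.2.1 * x.2.1, p ^ o.2.2 * x.2.2.1,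
    p ^ ((v - (o.1 + o.2.1 + 2 * o.2.2)) / 3) * x.2.2.2.1, p ^ j * x.2.2.2.2)

theorem IdxG_not_dvd {b p : O} (hp : PrP p) (hpb : ¬ p ∣ b) {x : O × O × O × O × O}
    (hx : IdxG b x) : ¬ p ∣ x.1 ∧ ¬ p ∣ x.2.1 ∧ ¬ p ∣ x.2.2.1 ∧ ¬ p ∣ x.2.2.2.1 ∧
      ¬ p ∣ x.2.2.2.2 := by
  obtain ⟨_, _, _, _, ⟨_, h1⟩, h2⟩ := hx
  refine ⟨fun h => hpb ?_, fun h => hpb ?_, fun h => hpb ?_, fun h => hpb ?_,
    fun h => hpb (h1 p hp h)⟩
  · rw [← h2]
    exact ((h.mul_right _).mul_right _).mul_right _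
  · rw [← h2]
    exact ((h.mul_left _).mul_right _).mul_right _
  · rw [← h2]
    exact ((h.trans (dvd_pow_self _ two_ne_zero)).mul_left _).mul_right _
  · rw [← h2]
    exact (h.trans (dvd_pow_self _ three_ne_zero)).mul_left _

theorem stepG_mem {b p : O} (hp : PrP p) (hpb : ¬ p ∣ b) {v : ℕ} (hv : 1 ≤ v) (j : ℕ)
    {o : ℕ × ℕ × ℕ} (ho : o ∈ opts v) {x : O × O × O × O × O} (hx : IdxG b x) :
    IdxG (b * p ^ v) (stepG p v j o x) := by
  obtain ⟨hn1, -, -, -, -⟩ := IdxG_not_dvd hp hpb hx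
  obtain ⟨⟨h1, h1'⟩, h2, h3, h4, ⟨h5, h6⟩, h7⟩ := hx
  obtain ⟨ho1, ho2⟩ := opts_spec hv ho
  refine ⟨⟨(hp.1.pow _).mul h1, ?_⟩, (hp.1.pow _).mul h2, (hp.1.pow _).mul h3,
    (hp.1.pow _).mul h4, ⟨(hp.1.pow _).mul h5, ?_⟩, ?_⟩
  · simp only [stepG]
    rw [mul_comm]
    exact CF_mul_pow h1' hp hn1 ho1
  · intro q hq hd
    simp only [stepG] at hd
    rcases hq.2.dvd_or_dvd hd with h | h
    · exact ((hq.2.dvd_of_dvd_pow h).trans (dvd_pow_self p (by omega))).mul_left b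
    · exact (h6 q hq h).mul_right _
  · simp only [stepG]
    set w := (v - (o.1 + o.2.1 + 2 * o.2.2)) / 3
    have : p ^ v = p ^ o.1 * p ^ o.2.1 * (p ^ o.2.2) ^ 2 * (p ^ w) ^ 3 := by
      rw [← pow_mul, ← pow_mul, ← pow_add, ← pow_add, ← pow_add]
      congr 1
      omega
    rw [this, ← h7]
    ring

theorem stepG_inj {b p : O} (hp : PrP p) (hpb : ¬ p ∣ b) {v : ℕ} (hv : 1 ≤ v) :
    Function.Injective (fun y : ℕ × {o // o ∈ opts v} × {x // IdxG b x} =>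
      (⟨stepG p v y.1 y.2.1 y.2.2.1, stepG_mem hp hpb hv _ y.2.1.2 y.2.2.2⟩ :
        {x // IdxG (b * p ^ v) x})) := by
  rintro ⟨j, ⟨⟨μ, τ, υ⟩, ho⟩, ⟨⟨m, t, u, n, k⟩, hx⟩⟩ ⟨j', ⟨⟨μ', τ', υ'⟩, ho'⟩,
    ⟨⟨m', t', u', n', k'⟩, hx'⟩⟩ heq
  simp only [stepG, Subtype.mk.injEq, Prod.mk.injEq] at heq
  obtain ⟨e1, e2, e3, e4, e5⟩ := heq
  obtain ⟨a1, a2, a3, a4, a5⟩ := IdxG_not_dvd hp hpb hx
  obtain ⟨b1, b2, b3, b4, b5⟩ := IdxG_not_dvd hp hpb hx'
  obtain ⟨c1, d1⟩ := pow_mul_inj hp a1 b1 e1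
  obtain ⟨c2, d2⟩ := pow_mul_inj hp a2 b2 e2
  obtain ⟨c3, d3⟩ := pow_mul_inj hp a3 b3 e3
  obtain ⟨c4, d4⟩ := pow_mul_inj hp a4 b4 e4
  obtain ⟨c5, d5⟩ := pow_mul_inj hp a5 b5 e5
  subst c1 c2 c3 c5 d1 d2 d3 d4 d5
  rfl

theorem termG_step {F : O → O → ℝ → ℝ} (p : O) (e : O) (Y : ℝ) (v j : ℕ) (o : ℕ × ℕ × ℕ)
    (x : O × O × O × O × O) :
    ENNReal.ofReal (√(N p) ^ (j + o.2.1)) *
      termG F (e * p ^ o.1) (Y / (N p : ℝ) ^ (3 * j + 2 * o.2.1 + o.2.2)) x =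
      termG F e Y (stepG p v j o x) := by
  rw [termG, termG, ← ENNReal.ofReal_mul (by positivity)]
  congr 1
  simp only [stepG]
  rw [sqrt_N_mul, sqrt_N_mul, sqrt_N_pow, sqrt_N_pow,
    show p ^ o.1 * x.1 * e = x.1 * (e * p ^ o.1) by ring, N_mul, N_mul, N_mul, N_pow, N_pow,
    N_pow, div_div]
  have : (N p : ℝ) ^ (3 * j + 2 * o.2.1 + o.2.2) *
      ((N x.2.2.2.2 : ℝ) ^ 3 * (N x.2.1 : ℝ) ^ 2 * N x.2.2.1) =
      ((N p ^ j * N x.2.2.2.2 : ℕ) : ℝ) ^ 3 * ((N p ^ o.2.1 * N x.2.1 : ℕ) : ℝ) ^ 2 *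
        ((N p ^ o.2.2 * N x.2.2.1 : ℕ) : ℝ) := by push_cast; ring
  rw [this]
  ring

/-- the general recursion -/
structure RecG (F : O → O → ℝ → ℝ) : Prop where
  nonneg : ∀ s D Y, 0 ≤ F s D Y
  step : ∀ (s D p : O) (v : ℕ), Primary s → Primary D → PrP p → ¬ p ∣ s → ¬ p ∣ D → 1 ≤ v →
    ∀ Y : ℝ, 0 < Y → ENNReal.ofReal (F (s * p ^ v) (D * p ^ v) Y) ≤
      ∑' j : ℕ, ∑ o ∈ opts v, ENNReal.ofReal (√(N p) ^ (j + o.2.1) *
        F (s * p ^ o.1) D (Y / (N p : ℝ) ^ (3 * j + 2 * o.2.1 + o.2.2)))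

/-- **Explicit formula, all exponents.** -/
theorem RecG.explicit {F : O → O → ℝ → ℝ} (h : RecG F) : ∀ b, Primary b → ∀ e : O, Primary e →
    (∀ q, PrP q → q ∣ b → ¬ q ∣ e) → ∀ Y : ℝ, 0 < Y →
    ENNReal.ofReal (F (b * e) b Y) ≤ ∑' x : {x // IdxG b x}, termG F e Y x := by
  apply Primary.induction_pow
  · intro e he hq Y hY
    have hx : IdxG 1 (1, 1, 1, 1, 1) := ⟨⟨primary_one, CF_one⟩, primary_one, primary_one,
      primary_one, ⟨primary_one, fun q _ h => h⟩, by simp⟩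
    refine le_trans (le_of_eq ?_) (ENNReal.le_tsum (⟨(1, 1, 1, 1, 1), hx⟩ : {x // IdxG 1 x}))
    simp [termG]
  · intro b p v hb hp hpb hv ih e he hq Y hY
    have hpe : ¬ p ∣ e := hq p hp ((dvd_pow_self p (by omega)).mul_left b)
    have hbe : ¬ p ∣ b * e := fun hh => (hp.2.dvd_or_dvd hh).elim hpb hpe
    have hN : (0 : ℝ) < N p := by exact_mod_cast N_pos hp.ne_zero
    have h1 := h.step (b * e) b p v (hb.mul he) hb hp hbe hpb hv Y hY
    rw [show b * p ^ v * e = b * e * p ^ v by ring]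
    refine h1.trans ?_
    have h2 : ∀ j : ℕ, ∑ o ∈ opts v, ENNReal.ofReal (√(N p) ^ (j + o.2.1) *
        F (b * e * p ^ o.1) b (Y / (N p : ℝ) ^ (3 * j + 2 * o.2.1 + o.2.2))) ≤
        ∑' o : {o // o ∈ opts v}, ∑' x : {x // IdxG b x}, termG F e Y (stepG p v j o x.1) := by
      intro j
      rw [Finset.tsum_subtype (opts v) (fun o => ∑' x : {x // IdxG b x},
        termG F e Y (stepG p v j o x.1))]
      refine Finset.sum_le_sum fun o ho => ?_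
      have hep : Primary (e * p ^ o.1) := he.mul (hp.1.pow _)
      have h4 := ih (e * p ^ o.1) hep (fun q hq1 hq2 hq3 => by
          rcases hq1.2.dvd_or_dvd hq3 with h5 | h5
          · exact hq q hq1 (hq2.mul_right _) h5
          · rw [hp.eq_of_dvd hq1 (hq1.2.dvd_of_dvd_pow h5)] at hq2; exact hpb hq2)
          (Y / (N p : ℝ) ^ (3 * j + 2 * o.2.1 + o.2.2)) (by positivity)
      rw [show b * (e * p ^ o.1) = b * e * p ^ o.1 by ring] at h4
      rw [ENNReal.ofReal_mul (by positivity)]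
      refine (mul_le_mul_right h4 _).trans (le_of_eq ?_)
      rw [← ENNReal.tsum_mul_left]
      exact tsum_congr fun x => termG_step p e Y v j o x.1
    refine (ENNReal.tsum_le_tsum h2).trans ?_
    have h5 : ∑' (j : ℕ) (o : {o // o ∈ opts v}) (x : {x // IdxG b x}),
        termG F e Y (stepG p v j o x.1) =
        ∑' y : ℕ × {o // o ∈ opts v} × {x // IdxG b x},
          termG F e Y (stepG p v y.1 y.2.1 y.2.2.1) := by
      rw [ENNReal.tsum_prod']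
      refine tsum_congr fun j => ?_
      rw [ENNReal.tsum_prod']
    rw [h5]
    exact ENNReal.tsum_comp_le_tsum_of_injective (stepG_inj hp hpb hv) (fun x => termG F e Y x.1)

end Vale.Agent.P006.V2
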