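import Vale.Agent.P006.V2.GenIdx

/-!
P006, block T1A: mean square over all primary `b` (all exponents).
-/

namespace Vale.Agent.P006.V2

open Vale.Agent.P006
open scoped ENNReal BigOperators
open Filter Topology

noncomputable def wtG (δ : ℝ) (x : O × O × O × O × O) : ℝ≥0∞ :=
  ENNReal.ofReal (((N x.2.2.2.2 : ℝ) * N x.2.1 * N x.2.2.1 * N x.2.2.2.1) ^ (-(1 + δ)))

noncomputable def sqG (F : O → O → ℝ → ℝ) (δ Y : ℝ) (x : O × O × O × O × O) : ℝ≥0∞ :=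
  ENNReal.ofReal (((N x.2.2.2.2 : ℝ) * N x.2.1 * N x.2.2.1 * N x.2.2.2.1) ^ (1 + δ) *
    N x.2.2.2.2 * N x.2.1 *
    F x.1 1 (Y / ((N x.2.2.2.2 : ℝ) ^ 3 * (N x.2.1 : ℝ) ^ 2 * N x.2.2.1)) ^ 2)

theorem sum_wtG_le {δ : ℝ} (hδ : 0 < δ) {b : O} (hb : b ≠ 0) :
    ∑' x : {x // IdxG b x}, wtG δ x ≤ ENNReal.ofReal (zsum (1 + δ)) ^ 4 := by
  have h0 : ∀ y : O × O × O × O,
      ENNReal.ofReal (((N y.2.2.2 : ℝ) * N y.1 * N y.2.1 * N y.2.2.1) ^ (-(1 + δ))) =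
      ENNReal.ofReal ((N y.1 : ℝ) ^ (-(1 + δ))) * (ENNReal.ofReal ((N y.2.1 : ℝ) ^ (-(1 + δ))) *
        (ENNReal.ofReal ((N y.2.2.1 : ℝ) ^ (-(1 + δ))) *
          ENNReal.ofReal ((N y.2.2.2 : ℝ) ^ (-(1 + δ))))) := by
    intro y
    rw [Real.mul_rpow (by positivity) (by positivity), Real.mul_rpow (by positivity) (by positivity),
      Real.mul_rpow (by positivity) (by positivity), ENNReal.ofReal_mul (by positivity),
      ENNReal.ofReal_mul (by positivity), ENNReal.ofReal_mul (by positivity)]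
    ring
  have h1 : ENNReal.ofReal (zsum (1 + δ)) ^ 4 = ∑' y : O × O × O × O,
      ENNReal.ofReal (((N y.2.2.2 : ℝ) * N y.1 * N y.2.1 * N y.2.2.1) ^ (-(1 + δ))) := by
    rw [tsum_congr h0, ENNReal.tsum_prod']
    simp_rw [ENNReal.tsum_prod', ENNReal.tsum_mul_left, ENNReal.tsum_mul_right,
      ennreal_tsum_N (show (1 : ℝ) < 1 + δ by linarith)]
    ring
  rw [h1]
  let f : {x // IdxG b x} → O × O × O × O := fun x => x.1.2
  have hf : Function.Injective f := by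
    rintro ⟨⟨m, t, u, n, k⟩, h⟩ ⟨⟨m', t', u', n', k'⟩, h'⟩ he
    simp only [f, Prod.mk.injEq] at he
    obtain ⟨rfl, rfl, rfl, rfl⟩ := he
    have h2 := h.2.2.2.2.2
    have h3 := h'.2.2.2.2.2
    simp only at h2 h3
    have h4 : t ≠ 0 := h.2.1.ne_zero
    have h5 : u ≠ 0 := h.2.2.1.ne_zero
    have h6 : n ≠ 0 := h.2.2.2.1.ne_zero
    have h7 : m = m' := by
      have : m * (t * u ^ 2 * n ^ 3) = m' * (t * u ^ 2 * n ^ 3) := by
        linear_combination h2 - h3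
      exact mul_right_cancel₀ (by positivity) this
    subst h7
    rfl
  exact ENNReal.tsum_comp_le_tsum_of_injective hf (fun y : O × O × O × O =>
    ENNReal.ofReal (((N y.2.2.2 : ℝ) * N y.1 * N y.2.1 * N y.2.2.1) ^ (-(1 + δ))))

theorem sq_explicitG {F : O → O → ℝ → ℝ} (h : RecG F) {δ : ℝ} {b : O} (hb : Primary b) {Y : ℝ}
    (hY : 0 < Y) :
    ENNReal.ofReal (F b b Y ^ 2) ≤
      (∑' x : {x // IdxG b x}, wtG δ x) * ∑' x : {x // IdxG b x}, sqG F δ Y x := by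
  have h1 := h.explicit b hb 1 primary_one
    (fun q hq _ h1 => hq.2.not_isUnit (isUnit_of_dvd_one h1)) Y hY
  rw [mul_one] at h1
  have h2 : ENNReal.ofReal (F b b Y ^ 2) ≤ (∑' x : {x // IdxG b x}, termG F 1 Y x) ^ 2 := by
    rw [ENNReal.ofReal_pow (h.nonneg _ _ _)]
    exact pow_le_pow_left' h1 2
  refine h2.trans ?_
  let g : {x // IdxG b x} → ℝ≥0∞ := fun x => ENNReal.ofReal
    (((N x.1.2.2.2.2 : ℝ) * N x.1.2.1 * N x.1.2.2.1 * N x.1.2.2.2.1) ^ (1 + δ) *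
    (√(N x.1.2.2.2.2) * √(N x.1.2.1) *
      F x.1.1 1 (Y / ((N x.1.2.2.2.2 : ℝ) ^ 3 * (N x.1.2.1 : ℝ) ^ 2 * N x.1.2.2.1))))
  have hpos : ∀ x : {x // IdxG b x},
      (0 : ℝ) < (N x.1.2.2.2.2 : ℝ) * N x.1.2.1 * N x.1.2.2.1 * N x.1.2.2.2.1 := by
    intro x
    have h1 := N_pos_real x.2.2.1.ne_zero
    have h2 := N_pos_real x.2.2.2.1.ne_zero
    have h3 := N_pos_real x.2.2.2.2.1.ne_zero
    have h4 := N_pos_real x.2.2.2.2.2.1.1.ne_zero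
    positivity
  have h3 : ∀ x : {x // IdxG b x}, termG F 1 Y x = wtG δ x * g x := by
    intro x
    rw [termG, wtG, ← ENNReal.ofReal_mul (by have := hpos x; positivity), mul_one, ← mul_assoc,
      ← Real.rpow_add (hpos x)]
    simp
  have h4 : ∀ x : {x // IdxG b x}, wtG δ x * g x ^ 2 = sqG F δ Y x := by
    intro x
    have hk := hpos x
    have hF := h.nonneg x.1.1 1 (Y / ((N x.1.2.2.2.2 : ℝ) ^ 3 * (N x.1.2.1 : ℝ) ^ 2 * N x.1.2.2.1))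
    simp only [g]
    rw [wtG, sqG, ← ENNReal.ofReal_pow (by positivity), ← ENNReal.ofReal_mul (by positivity)]
    congr 1
    set z : ℝ := (N x.1.2.2.2.2 : ℝ) * N x.1.2.1 * N x.1.2.2.1 * N x.1.2.2.2.1
    rw [mul_pow, mul_pow, mul_pow, Real.sq_sqrt (Nat.cast_nonneg _),
      Real.sq_sqrt (Nat.cast_nonneg _), ← mul_assoc, sq (z ^ (1 + δ)),
      ← mul_assoc (z ^ (-(1 + δ))), ← Real.rpow_add hk]
    simp
    ring
  rw [tsum_congr h3]
  refine (ennreal_cs _ _).trans (le_of_eq ?_)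
  rw [tsum_congr h4]

/-- mean square bound over all primary elements (resp. cubefree primary elements) -/
def MSAll (F : O → O → ℝ → ℝ) (Q : O → Prop) (D : O → O) (K α η : ℝ) : Prop :=
  ∀ R Y : ℝ, 1 ≤ R → 0 < Y → ∀ (S : Finset O) (y : O → ℝ),
    (∀ m ∈ S, Primary m ∧ Q m ∧ (N m : ℝ) ≤ R) → (∀ m ∈ S, Y ≤ y m ∧ y m ≤ 2 * Y) →
      ∑ m ∈ S, F m (D m) (y m) ^ 2 ≤ K * R ^ (1 + η) * Y ^ α

theorem real_ineq {k t u n K R Y δ α η : ℝ} (hk : 1 ≤ k) (ht : 1 ≤ t) (hu : 1 ≤ u) (hn : 1 ≤ n)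
    (hK : 0 ≤ K) (hR : 0 < R) (hY : 0 < Y) (hη : 0 < η) :
    (k * t * u * n) ^ (1 + δ) * k * t *
      (K * (R / (t * u ^ 2 * n ^ 3)) ^ (1 + η) * (Y / (k ^ 3 * t ^ 2 * u)) ^ α) ≤
    K * R ^ (1 + η) * Y ^ α * (t ^ (-(2 * α - 1 - δ)) * (u ^ (-(1 + α - δ)) *
      (n ^ (-(2 - δ)) * k ^ (-(3 * α - 2 - δ))))) := by
  have hk0 : 0 < k := by linarith
  have ht0 : 0 < t := by linarith
  have hu0 : 0 < u := by linarith
  have hn0 : 0 < n := by linarith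
  have h1 : (k * t * u * n) ^ (1 + δ) = k ^ (1 + δ) * t ^ (1 + δ) * u ^ (1 + δ) * n ^ (1 + δ) := by
    rw [Real.mul_rpow (by positivity) (by positivity), Real.mul_rpow (by positivity) (by positivity),
      Real.mul_rpow (by positivity) (by positivity)]
  have h2 : (R / (t * u ^ 2 * n ^ 3)) ^ (1 + η) ≤ R ^ (1 + η) * (t * u ^ 2 * n ^ 3)⁻¹ := by
    have hq : 1 ≤ t * u ^ 2 * n ^ 3 :=
      one_le_mul_of_one_le_of_one_le (one_le_mul_of_one_le_of_one_le ht (one_le_pow₀ hu))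
        (one_le_pow₀ hn)
    rw [Real.div_rpow hR.le (by positivity), div_eq_mul_inv]
    apply mul_le_mul_of_nonneg_left _ (by positivity)
    apply inv_anti₀ (by positivity)
    calc t * u ^ 2 * n ^ 3 = (t * u ^ 2 * n ^ 3) ^ (1 : ℝ) := (Real.rpow_one _).symm
      _ ≤ _ := Real.rpow_le_rpow_of_exponent_le hq (by linarith)
  have h3 : (Y / (k ^ 3 * t ^ 2 * u)) ^ α = Y ^ α *
      (k ^ (-(3 * α)) * t ^ (-(2 * α)) * u ^ (-α)) := by
    rw [Real.div_rpow hY.le (by positivity), div_eq_mul_inv, Real.mul_rpow (by positivity) hu0.le,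
      Real.mul_rpow (by positivity) (by positivity), ← Real.rpow_natCast k 3,
      ← Real.rpow_natCast t 2, ← Real.rpow_mul hk0.le, ← Real.rpow_mul ht0.le, mul_inv, mul_inv,
      ← Real.rpow_neg hk0.le, ← Real.rpow_neg ht0.le, ← Real.rpow_neg hu0.le]
    norm_num
  have h4 : k ^ (-(3 * α - 2 - δ)) = k ^ (1 + δ) * k * k ^ (-(3 * α)) := by
    rw [show -(3 * α - 2 - δ) = (1 + δ) + 1 + -(3 * α) by ring, Real.rpow_add hk0,
      Real.rpow_add hk0, Real.rpow_one]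
  have h5 : t ^ (-(2 * α - 1 - δ)) = t ^ (1 + δ) * t * t⁻¹ * t ^ (-(2 * α)) := by
    rw [show -(2 * α - 1 - δ) = (1 + δ) + -(2 * α) by ring, Real.rpow_add ht0]
    field_simp
  have h6 : u ^ (-(1 + α - δ)) = u ^ (1 + δ) * (u ^ 2)⁻¹ * u ^ (-α) := by
    rw [show -(1 + α - δ) = (1 + δ) + (-2) + -α by ring, Real.rpow_add hu0, Real.rpow_add hu0,
      Real.rpow_neg hu0.le 2, Real.rpow_two]
  have h7 : n ^ (-(2 - δ)) = n ^ (1 + δ) * (n ^ 3)⁻¹ := by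
    rw [show -(2 - δ) = (1 + δ) + (-3) by ring, Real.rpow_add hn0, Real.rpow_neg hn0.le 3]
    norm_cast
  calc (k * t * u * n) ^ (1 + δ) * k * t *
      (K * (R / (t * u ^ 2 * n ^ 3)) ^ (1 + η) * (Y / (k ^ 3 * t ^ 2 * u)) ^ α)
      ≤ (k * t * u * n) ^ (1 + δ) * k * t *
      (K * (R ^ (1 + η) * (t * u ^ 2 * n ^ 3)⁻¹) * (Y / (k ^ 3 * t ^ 2 * u)) ^ α) := by
        gcongr
    _ = _ := by
        rw [h1, h3, h4, h5, h6, h7, mul_inv, mul_inv]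
        ring

/-- the inner sum over `m` for fixed `t, u, n, k` -/
theorem inner_boundG {F : O → O → ℝ → ℝ} {K α η : ℝ} (hη : 0 < η)
    (hK : 0 ≤ K) (hyp : MSAll F CF (fun _ => 1) K α η)
    {R Y δ : ℝ} (hR : 1 ≤ R) (hY : 0 < Y) (S : Finset O) (y : O → ℝ)
    (hS : ∀ m ∈ S, Primary m ∧ (N m : ℝ) ≤ R) (hy : ∀ m ∈ S, Y ≤ y m ∧ y m ≤ 2 * Y)
    {t u n k : O} (ht : Primary t) (hu : Primary u) (hn : Primary n) (hk : Primary k) :
    ∑' m : {m : O // CF m ∧ m * t * u ^ 2 * n ^ 3 ∈ S},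
      sqG F δ (y (m * t * u ^ 2 * n ^ 3)) (m.1, t, u, n, k) ≤
      ENNReal.ofReal (K * R ^ (1 + η) * Y ^ α) *
        (ENNReal.ofReal ((N t : ℝ) ^ (-(2 * α - 1 - δ))) *
          (ENNReal.ofReal ((N u : ℝ) ^ (-(1 + α - δ))) *
            (ENNReal.ofReal ((N n : ℝ) ^ (-(2 - δ))) *
              ENNReal.ofReal ((N k : ℝ) ^ (-(3 * α - 2 - δ)))))) := by
  classical
  have ht0 : (0 : ℝ) < N t := N_pos_real ht.ne_zero
  have hk0 : (0 : ℝ) < N k := N_pos_real hk.ne_zero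
  have hu0 : (0 : ℝ) < N u := N_pos_real hu.ne_zero
  have hn0 : (0 : ℝ) < N n := N_pos_real hn.ne_zero
  have ht1 : (1 : ℝ) ≤ N t := one_le_N ht.ne_zero
  have hu1 : (1 : ℝ) ≤ N u := one_le_N hu.ne_zero
  have hn1 : (1 : ℝ) ≤ N n := one_le_N hn.ne_zero
  have hk1 : (1 : ℝ) ≤ N k := one_le_N hk.ne_zero
  set q : O := t * u ^ 2 * n ^ 3 with hq
  have hqp : Primary q := (ht.mul (hu.pow 2)).mul (hn.pow 3)
  have hqe : ∀ m : O, m * t * u ^ 2 * n ^ 3 = m * q := fun m => by rw [hq]; ring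
  have hNq : (N q : ℝ) = N t * (N u : ℝ) ^ 2 * (N n : ℝ) ^ 3 := by
    rw [hq, N_mul, N_mul, N_pow, N_pow]; push_cast; ring
  have hinj : Set.InjOn (fun m : O => m * q) ((fun m : O => m * q) ⁻¹' (S : Set O)) :=
    (mul_left_injective₀ hqp.ne_zero).injOn
  set S' : Finset O := (S.preimage (fun m : O => m * q) hinj).filter CF with hS'
  have hmem : ∀ m, m ∈ S' ↔ CF m ∧ m * t * u ^ 2 * n ^ 3 ∈ S := fun m => by
    rw [hS', Finset.mem_filter, Finset.mem_preimage, hqe]; tauto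
  have h1 : ∑' m : {m : O // CF m ∧ m * t * u ^ 2 * n ^ 3 ∈ S},
      sqG F δ (y (m * t * u ^ 2 * n ^ 3)) (m.1, t, u, n, k) =
      ∑ m ∈ S', sqG F δ (y (m * t * u ^ 2 * n ^ 3)) (m, t, u, n, k) := by
    rw [← Finset.tsum_subtype S' (fun m => sqG F δ (y (m * t * u ^ 2 * n ^ 3)) (m, t, u, n, k))]
    exact (Equiv.tsum_eq (Equiv.subtypeEquivRight hmem)
      (fun m : {m : O // CF m ∧ m * t * u ^ 2 * n ^ 3 ∈ S} =>
        sqG F δ (y (m * t * u ^ 2 * n ^ 3)) (m.1, t, u, n, k))).symm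
  rw [h1]
  set c : ℝ := (N k : ℝ) ^ 3 * (N t : ℝ) ^ 2 * N u with hc
  have hc0 : 0 < c := by positivity
  set Y' : ℝ := Y / c with hY'
  have hY'0 : 0 < Y' := by positivity
  have hPP : ∀ m ∈ S', Primary m ∧ CF m ∧ (N m : ℝ) ≤ R / N q := by
    intro m hm
    obtain ⟨h2, h3⟩ := (hmem m).1 hm
    rw [hqe] at h3
    obtain ⟨h4, h5⟩ := hS _ h3
    refine ⟨hqp.of_mul (by rw [mul_comm]; exact h4), h2, ?_⟩
    rw [le_div_iff₀ (by rw [hNq]; positivity)]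
    rw [N_mul] at h5
    push_cast at h5
    exact h5
  have hyy : ∀ m ∈ S', Y' ≤ y (m * t * u ^ 2 * n ^ 3) / c ∧
      y (m * t * u ^ 2 * n ^ 3) / c ≤ 2 * Y' := by
    intro m hm
    obtain ⟨h2, h3⟩ := hy _ ((hmem m).1 hm).2
    constructor
    · exact div_le_div_of_nonneg_right h2 hc0.le
    · rw [hY', ← mul_div_assoc]; exact div_le_div_of_nonneg_right h3 hc0.le
  have h2 : ∑ m ∈ S', sqG F δ (y (m * t * u ^ 2 * n ^ 3)) (m, t, u, n, k) =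
      ENNReal.ofReal (((N k : ℝ) * N t * N u * N n) ^ (1 + δ) * N k * N t *
        ∑ m ∈ S', F m 1 (y (m * t * u ^ 2 * n ^ 3) / c) ^ 2) := by
    rw [Finset.mul_sum, ENNReal.ofReal_sum_of_nonneg (fun m _ => by positivity)]
    rfl
  rw [h2, ← ENNReal.ofReal_mul (by positivity), ← ENNReal.ofReal_mul (by positivity),
    ← ENNReal.ofReal_mul (by positivity), ← ENNReal.ofReal_mul (by positivity)]
  apply ENNReal.ofReal_le_ofReal
  by_cases hemp : S' = ∅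
  · rw [hemp, Finset.sum_empty, mul_zero]; positivity
  obtain ⟨m0, hm0⟩ := Finset.nonempty_iff_ne_empty.2 hemp
  have hRq : 1 ≤ R / N q := (one_le_N (hPP m0 hm0).1.ne_zero).trans (hPP m0 hm0).2.2
  have h3 := hyp (R / N q) Y' hRq hY'0 S' (fun m => y (m * t * u ^ 2 * n ^ 3) / c) hPP hyy
  simp only at h3
  have hmain := real_ineq (δ := δ) (α := α) (η := η) (K := K) (R := R) (Y := Y) hk1 ht1 hu1 hn1 hK
    (by linarith) hY hη
  rw [← hNq, ← hc, ← hY'] at hmain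
  refine (mul_le_mul_of_nonneg_left h3 (by positivity)).trans hmain

theorem sum_sqG_le {F : O → O → ℝ → ℝ} {K α η : ℝ} (hη : 0 < η)
    (hK : 0 ≤ K) (hyp : MSAll F CF (fun _ => 1) K α η)
    {R Y δ : ℝ} (hR : 1 ≤ R) (hY : 0 < Y) (h1 : 1 < 2 * α - 1 - δ) (h2 : 1 < 1 + α - δ)
    (h3 : 1 < 2 - δ) (h4 : 1 < 3 * α - 2 - δ) (S : Finset O) (y : O → ℝ)
    (hS : ∀ m ∈ S, Primary m ∧ (N m : ℝ) ≤ R) (hy : ∀ m ∈ S, Y ≤ y m ∧ y m ≤ 2 * Y) :
    ∑ b ∈ S, ∑' x : {x // IdxG b x}, sqG F δ (y b) x ≤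
      ENNReal.ofReal (K * R ^ (1 + η) * Y ^ α) *
        (ENNReal.ofReal (zsum (2 * α - 1 - δ)) * (ENNReal.ofReal (zsum (1 + α - δ)) *
          (ENNReal.ofReal (zsum (2 - δ)) * ENNReal.ofReal (zsum (3 * α - 2 - δ))))) := by
  classical
  let f : (Σ b : {b // b ∈ S}, {x // IdxG b.1 x}) →
      (Σ w : {t : O // Primary t} × {u : O // Primary u} × {n : O // Primary n} ×
        {k : O // Primary k}, {m : O // CF m ∧ m * w.1.1 * w.2.1.1 ^ 2 * w.2.2.1.1 ^ 3 ∈ S}) :=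
    fun z => ⟨(⟨z.2.1.2.1, z.2.2.2.1⟩, ⟨z.2.1.2.2.1, z.2.2.2.2.1⟩,
      ⟨z.2.1.2.2.2.1, z.2.2.2.2.2.1⟩, ⟨z.2.1.2.2.2.2, z.2.2.2.2.2.2.1.1⟩), ⟨z.2.1.1, z.2.2.1.2, by
      have := z.2.2.2.2.2.2.2; simp only; rw [this]; exact z.1.2⟩⟩
  have hf : Function.Injective f := by
    rintro ⟨⟨r, hr⟩, ⟨⟨m, t, u, n, k⟩, hx⟩⟩ ⟨⟨r', hr'⟩, ⟨⟨m', t', u', n', k'⟩, hx'⟩⟩ he
    simp only [f, Sigma.mk.injEq, Prod.mk.injEq, Subtype.mk.injEq] at he
    obtain ⟨⟨rfl, rfl, rfl, rfl⟩, he⟩ := he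
    have hs : m = m' := by
      have := eq_of_heq he
      simpa using this
    subst hs
    have hrr : r = r' := by
      have e1 := hx.2.2.2.2.2
      have e2 := hx'.2.2.2.2.2
      simp only at e1 e2
      rw [← e1, ← e2]
    subst hrr
    rfl
  have e1 : ∑ b ∈ S, ∑' x : {x // IdxG b x}, sqG F δ (y b) x =
      ∑' z : (Σ b : {b // b ∈ S}, {x // IdxG b.1 x}),
        sqG F δ (y (z.2.1.1 * z.2.1.2.1 * z.2.1.2.2.1 ^ 2 * z.2.1.2.2.2.1 ^ 3)) z.2.1 := by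
    rw [ENNReal.tsum_sigma', ← Finset.tsum_subtype S (fun b => ∑' x : {x // IdxG b x},
      sqG F δ (y b) x)]
    refine tsum_congr fun b => tsum_congr fun x => ?_
    rw [x.2.2.2.2.2.2]
  have e2 := ENNReal.tsum_comp_le_tsum_of_injective hf
      (fun z => sqG F δ (y (z.2.1 * z.1.1.1 * z.1.2.1.1 ^ 2 * z.1.2.2.1.1 ^ 3))
        (z.2.1, z.1.1.1, z.1.2.1.1, z.1.2.2.1.1, z.1.2.2.2.1))
  rw [e1]
  refine le_trans (le_of_eq rfl) (e2.trans ?_)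
  rw [ENNReal.tsum_sigma']
  simp_rw [ENNReal.tsum_prod']
  have e3 : ∀ (t : {t : O // Primary t}) (u : {u : O // Primary u}) (n : {n : O // Primary n})
      (k : {k : O // Primary k}),
      ∑' m : {m : O // CF m ∧ m * t.1 * u.1 ^ 2 * n.1 ^ 3 ∈ S},
        sqG F δ (y (m * t.1 * u.1 ^ 2 * n.1 ^ 3)) (m.1, t.1, u.1, n.1, k.1) ≤
      ENNReal.ofReal (K * R ^ (1 + η) * Y ^ α) *
        (ENNReal.ofReal ((N t.1 : ℝ) ^ (-(2 * α - 1 - δ))) *
          (ENNReal.ofReal ((N u.1 : ℝ) ^ (-(1 + α - δ))) *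
            (ENNReal.ofReal ((N n.1 : ℝ) ^ (-(2 - δ))) *
              ENNReal.ofReal ((N k.1 : ℝ) ^ (-(3 * α - 2 - δ)))))) := fun t u n k =>
    inner_boundG hη hK hyp hR hY S y hS hy t.2 u.2 n.2 k.2
  refine (ENNReal.tsum_le_tsum fun t => ENNReal.tsum_le_tsum fun u => ENNReal.tsum_le_tsum
    fun n => ENNReal.tsum_le_tsum fun k => e3 t u n k).trans ?_
  have e4 : ∀ β : ℝ, 1 < β → ∑' k : {k : O // Primary k}, ENNReal.ofReal ((N k.1 : ℝ) ^ (-β)) ≤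
      ENNReal.ofReal (zsum β) := by
    intro β hβ
    rw [← ennreal_tsum_N hβ]
    exact ENNReal.tsum_comp_le_tsum_of_injective Subtype.val_injective
      (fun k : O => ENNReal.ofReal ((N k : ℝ) ^ (-β)))
  simp_rw [ENNReal.tsum_mul_left, ENNReal.tsum_mul_right]
  refine mul_le_mul' le_rfl (mul_le_mul' (e4 _ h1) (mul_le_mul' (e4 _ h2)
    (mul_le_mul' (e4 _ h3) (e4 _ h4))))

/-- **Mean square bound over all primary `b`, all exponents.** -/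
theorem meanSqG {α η : ℝ} (hα : 1 < α) (hη : 0 < η) : ∃ C : ℝ, 0 ≤ C ∧
    ∀ F : O → O → ℝ → ℝ, RecG F → ∀ K : ℝ, 0 ≤ K →
      MSAll F CF (fun _ => 1) K α η → MSAll F (fun _ => True) id (C * K) α η := by
  set δ : ℝ := min ((α - 1)) (1 / 2) with hδ
  have hδ0 : 0 < δ := by rw [hδ]; exact lt_min (by linarith) (by norm_num)
  have hδ1 : δ ≤ α - 1 := min_le_left _ _
  have hδ2 : δ ≤ 1 / 2 := min_le_right _ _
  set Z : ℝ := zsum (1 + δ) ^ 4 * (zsum (2 * α - 1 - δ) * (zsum (1 + α - δ) *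
    (zsum (2 - δ) * zsum (3 * α - 2 - δ)))) with hZ
  have z1 := zsum_nonneg (1 + δ)
  have z2 := zsum_nonneg (2 * α - 1 - δ)
  have z3 := zsum_nonneg (1 + α - δ)
  have z4 := zsum_nonneg (2 - δ)
  have z5 := zsum_nonneg (3 * α - 2 - δ)
  refine ⟨Z, by positivity, ?_⟩
  intro F hF K hK hyp R Y hR hY S y hS hy
  have hR0 : 0 < R := by linarith
  have h1 : ∀ b ∈ S, ENNReal.ofReal (F b (id b) (y b) ^ 2) ≤
      ENNReal.ofReal (zsum (1 + δ)) ^ 4 * ∑' x : {x // IdxG b x}, sqG F δ (y b) x := by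
    intro b hb
    refine (sq_explicitG hF (hS b hb).1 (lt_of_lt_of_le hY (hy b hb).1)).trans
      (mul_le_mul' (sum_wtG_le hδ0 (hS b hb).1.ne_zero) le_rfl)
  have h2 : ENNReal.ofReal (∑ b ∈ S, F b (id b) (y b) ^ 2) ≤
      ENNReal.ofReal (zsum (1 + δ)) ^ 4 *
      (ENNReal.ofReal (K * R ^ (1 + η) * Y ^ α) *
        (ENNReal.ofReal (zsum (2 * α - 1 - δ)) * (ENNReal.ofReal (zsum (1 + α - δ)) *
          (ENNReal.ofReal (zsum (2 - δ)) * ENNReal.ofReal (zsum (3 * α - 2 - δ)))))) := by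
    rw [ENNReal.ofReal_sum_of_nonneg (fun r _ => by positivity)]
    refine (Finset.sum_le_sum h1).trans ?_
    rw [← Finset.mul_sum]
    exact mul_le_mul' le_rfl (sum_sqG_le hη hK hyp hR hY (by linarith) (by linarith)
      (by linarith) (by linarith) S y (fun m hm => ⟨(hS m hm).1, (hS m hm).2.2⟩) hy)
  rw [← ENNReal.ofReal_mul z4, ← ENNReal.ofReal_mul z3, ← ENNReal.ofReal_mul z2,
    ← ENNReal.ofReal_mul (by positivity), ← ENNReal.ofReal_pow z1,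
    ← ENNReal.ofReal_mul (by positivity)] at h2
  have h3 := (ENNReal.ofReal_le_ofReal_iff (by positivity)).1 h2
  refine h3.trans (le_of_eq ?_)
  rw [hZ]
  ring

end Vale.Agent.P006.V2
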