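import Vale.Agent.P006.V2.Recursion

/-!
P006, block T1A: primary squarefree elements, induction on them.
-/

namespace Vale.Agent.P006.V2

open Vale.Agent.P006

/-- squarefree primary elements -/
def PP (r : O) : Prop := Primary r ∧ Squarefree r

theorem _root_.Vale.Agent.P006.Primary.of_mul_left {r s : O} (h : Primary r)
    (h' : Primary (s * r)) : Primary s := h.of_mul (by rwa [mul_comm])

/-- a primary element `≠ 1` has a primary prime factor -/
theorem exists_primary_prime {x : O} (hx : Primary x) (h1 : x ≠ 1) :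
    ∃ p : O, PrP p ∧ p ∣ x := by
  revert x
  have : ∀ x : O, Primary x → (x ≠ 1 → ∃ p : O, PrP p ∧ p ∣ x) := by
    apply Primary.induction
    · intro h; exact absurd rfl h
    · intro π b hπ hπ' _ _ _
      exact ⟨π, ⟨hπ', hπ⟩, dvd_mul_right _ _⟩
  exact fun {x} hx h1 => this x hx h1

theorem PrP.eq_of_dvd {p q : O} (hp : PrP p) (hq : PrP q) (h : q ∣ p) : q = p := by
  have h1 : Associated q p := hq.2.associated_of_dvd hp.2 h
  obtain ⟨u, hu⟩ := h1
  have h2 : Primary (u : O) := hq.1.of_mul (by rw [hu]; exact hp.1)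
  have h3 : (u : O) = 1 := h2.eq_one u.isUnit
  rw [← hu, h3, mul_one]

theorem PP.ne_zero {r : O} (h : PP r) : r ≠ 0 := h.1.ne_zero

theorem PP_one : PP 1 := ⟨primary_one, squarefree_one⟩

theorem PP.induction {motive : O → Prop} (h1 : motive 1)
    (hmul : ∀ r p, PP r → PrP p → ¬ p ∣ r → motive r → motive (r * p)) :
    ∀ r, PP r → motive r := by
  intro r
  induction hn : N r using Nat.strong_induction_on generalizing r with
  | _ n ih =>
    intro hr
    by_cases hr1 : r = 1
    · rw [hr1]; exact h1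
    obtain ⟨p, hp, hpr⟩ := exists_primary_prime hr.1 hr1
    obtain ⟨s, hs⟩ := hpr
    have hs1 : Primary s := hp.1.of_mul (by rw [← hs]; exact hr.1)
    have hsf : Squarefree s := hr.2.squarefree_of_dvd ⟨p, by rw [hs]; ring⟩
    have hps : ¬ p ∣ s := by
      rintro ⟨t, ht⟩
      have : p * p ∣ r := ⟨t, by rw [hs, ht]; ring⟩
      exact hp.2.not_isUnit (hr.2 p this)
    have hN : N s < n := by
      rw [← hn, hs, N_mul]
      have h2 := hp.two_le
      have h3 : 0 < N s := N_pos hs1.ne_zero
      nlinarith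
    have := ih (N s) hN s rfl ⟨hs1, hsf⟩
    rw [hs, mul_comm]
    exact hmul s p ⟨hs1, hsf⟩ hp hps this

end Vale.Agent.P006.V2
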