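import Vale.Agent.P006.CR.GaussSum
import Vale.Agent.P006.V2.Prim

/-!
P006, block T1A: the local relations of the normalised Gauss sums at a primary prime `p`.
-/

namespace Vale.Agent.P006.V2

open Vale.Agent.P006
open scoped BigOperators

section

variable {p s a : O}

theorem PrP.not_lam (hp : PrP p) : ¬ lam ∣ p := hp.1.not_lam_dvd

theorem PrP.coprime (hp : PrP p) (h : ¬ p ∣ a) : IsCoprime p a := (hp.2.coprime_iff_not_dvd).2 h

theorem sqrt_N_pos (h : p ≠ 0) : 0 < √(N p : ℝ) := Real.sqrt_pos.2 (by exact_mod_cast N_pos h)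

theorem gt_twist (hp : PrP p) (ha : Primary a) (h : ¬ p ∣ a) :
    gt (s * p) a = (starRingEnd ℂ) (toC (sym p a)) * gt s a := by
  rw [gt, mul_comm s p, gs_twist s ha.ne_zero (hp.coprime h), gt]; ring

theorem gt_L0 (hp : PrP p) (ha : Primary a) (h : ¬ p ∣ a) :
    gt s (p * a) = gt s p * gt (s * p) a := by
  rw [gt_mul_primary s hp.1 ha (hp.coprime h), gt_twist hp ha h]; ring

theorem gt_L0' (hp : PrP p) (hs : ¬ p ∣ s) (ha : Primary a) (h : p ∣ a) :
    gt s (p * a) = 0 := by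
  obtain ⟨b, rfl⟩ := h
  have hb : b ≠ 0 := by rintro rfl; exact ha.ne_zero (by simp)
  rw [gt, show p * (p * b) = p ^ 2 * b by ring, gs_eq_zero_of_sq_dvd hp.2 hp.not_lam hb hs,
    zero_div]

theorem gt_prime_of_dvd (hp : PrP p) (hs : p ∣ s) : gt s p = 0 := by
  rw [gt, gs_prime_of_dvd hp.2 hp.not_lam hs, zero_div]

theorem gt_L1 (hp : PrP p) (ha : Primary a) (h : ¬ p ∣ a) (hs : p ∣ s) :
    gt s (p * a) = 0 := by
  rw [gt_mul_primary s hp.1 ha (hp.coprime h), gt_prime_of_dvd hp hs]; ring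

theorem norm_gt_prime (hp : PrP p) (hs : ¬ p ∣ s) : ‖gt s p‖ = 1 :=
  norm_gt hp.1 hp.2.squarefree (hp.coprime hs).symm

theorem sym_ne (hp : PrP p) (h : ¬ p ∣ a) : (starRingEnd ℂ) (toC (sym p a)) ^ 3 = 1 := by
  rw [← map_pow, ← map_pow, sym_cube (hp.coprime h), map_one, map_one]

theorem gt_L2 (hp : PrP p) (ha : Primary a) (h : ¬ p ∣ a) :
    gt (s * p) (p ^ 2 * a) = gt (s * p) (p ^ 2) * gt s a := by
  rw [gt_mul_primary _ (hp.1.pow 2) ha (IsCoprime.pow_left (hp.coprime h)), gt_twist hp ha h,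
    sym_pow_left, map_pow, map_pow]
  have := sym_ne hp h
  linear_combination (gt (s * p) (p ^ 2) * gt s a) * this

theorem dvd_cancel_pow {n : ℕ} (hp : PrP p) (hs : ¬ p ∣ s) : ¬ p ^ (n + 1) ∣ s * p ^ n := by
  intro h
  rw [pow_succ', mul_dvd_mul_iff_right (pow_ne_zero n hp.ne_zero)] at h
  exact hs h

/-- `sym · (p^(n+1) a)` only depends on the class modulo `p a` -/
theorem sym_dep {n : ℕ} (hp : PrP p) (ha : a ≠ 0) (x y : O) (h : (p * a) ∣ x - y) :
    sym x (p * a * p ^ n) = sym y (p * a * p ^ n) := by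
  rw [sym_mul_right _ (mul_ne_zero hp.ne_zero ha) (pow_ne_zero n hp.ne_zero),
    sym_mul_right _ (mul_ne_zero hp.ne_zero ha) (pow_ne_zero n hp.ne_zero),
    sym_pow_right _ hp.ne_zero, sym_pow_right _ hp.ne_zero, sym_periodic h,
    sym_periodic ((dvd_mul_right p a).trans h)]

theorem gs_vanish {n m : ℕ} (hp : PrP p) (ha : Primary a) (hs : ¬ p ∣ s) (hnm : n < m) :
    gs (s * p ^ n) (p * a * p ^ m) = 0 := by
  apply gs_eq_zero_of_not_dvd (mul_ne_zero hp.ne_zero ha.ne_zero) (pow_ne_zero m hp.ne_zero)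
    (IsCoprime.pow_left (isCoprime_lam_of_prime hp.2 hp.not_lam))
    (fun x y h => sym_dep hp ha.ne_zero x y h)
  intro h
  exact dvd_cancel_pow (n := n) hp hs ((pow_dvd_pow p hnm).trans h)

theorem gt_L2' (hp : PrP p) (hs : ¬ p ∣ s) (ha : Primary a) (h : p ∣ a) :
    gt (s * p) (p ^ 2 * a) = 0 := by
  obtain ⟨b, rfl⟩ := h
  have hb : Primary b := hp.1.of_mul ha
  have := gs_vanish (n := 1) (m := 2) hp hb hs (by norm_num)
  rw [pow_one] at this
  rw [gt, show p ^ 2 * (p * b) = p * b * p ^ 2 by ring, this, zero_div]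

/-- a sum over `O/(p)` of the conjugate character -/
theorem sum_conj_chi (hp : PrP p) [NeZero p] (s : O) :
    ∑ y : Rs p, (starRingEnd ℂ) (chi p y) * psi p (rs p s * y) = (starRingEnd ℂ) (gs s p) := by
  rw [← gs_neg s hp.ne_zero, gs_eq_sum, map_sum]
  refine Finset.sum_congr rfl fun y _ => ?_
  rw [map_mul (starRingEnd ℂ), conj_psi, map_neg (rs p), neg_mul, neg_neg]

theorem gs_sq (hp : PrP p) (s : O) :
    gs (s * p) (p ^ 2) = N p * (starRingEnd ℂ) (gs s p) := by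
  have : NeZero p := ⟨hp.ne_zero⟩
  have h := gs_mul_of_dvd (r := p) (s := p) hp.ne_zero (fun x y h => by
    rw [sym_mul_right _ hp.ne_zero hp.ne_zero, sym_mul_right _ hp.ne_zero hp.ne_zero,
      sym_periodic h]) s
  rw [mul_comm s p, sq, h, ← sum_conj_chi hp]
  congr 1
  refine Finset.sum_congr rfl fun y _ => ?_
  rw [sym_mul_right _ hp.ne_zero hp.ne_zero, ← sq, map_pow, ← conj_sym, ← chi_rs, rs_outR]

theorem gt_sq (hp : PrP p) (s : O) :
    gt (s * p) (p ^ 2) = √(N p : ℝ) * (starRingEnd ℂ) (gt s p) := by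
  have h0 := sqrt_N_pos hp.ne_zero
  have h1 : ((√(N p : ℝ) : ℝ) : ℂ) ≠ 0 := by exact_mod_cast h0.ne'
  have h2 : ((√(N p : ℝ) : ℝ) : ℂ) ^ 2 = N p := by
    rw [← Complex.ofReal_pow, Real.sq_sqrt (Nat.cast_nonneg _)]; simp
  have h3 : √(N (p ^ 2) : ℝ) = N p := by
    rw [N_pow, Nat.cast_pow, Real.sqrt_sq (Nat.cast_nonneg _)]
  rw [gt, gs_sq hp, gt, h3, map_div₀, Complex.conj_ofReal]
  have h4 : (N p : ℂ) ≠ 0 := by rw [← h2]; exact pow_ne_zero 2 h1
  rw [Complex.ofReal_natCast]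
  field_simp

theorem gt_L3 (hp : PrP p) (hs : ¬ p ∣ s) :
    gt (s * p) (p ^ 2) * gt s p = √(N p : ℝ) := by
  rw [gt_sq hp, mul_assoc, mul_comm ((starRingEnd ℂ) (gt s p)), Complex.mul_conj,
    Complex.normSq_eq_norm_sq, norm_gt_prime hp hs]
  simp

/-! ### squares in the frequency -/

theorem gs_sq_sq (hp : PrP p) (s : O) : gs (s * p ^ 2) (p ^ 2) = 0 := by
  have h := gs_sq hp (s * p)
  rw [show s * p ^ 2 = s * p * p by ring, h, gs_prime_of_dvd hp.2 hp.not_lam (dvd_mul_left p s)]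
  simp

theorem gt_L4 (hp : PrP p) (ha : Primary a) (h : ¬ p ∣ a) :
    gt (s * p ^ 2) (p ^ 2 * a) = 0 := by
  rw [gt_mul_primary _ (hp.1.pow 2) ha (IsCoprime.pow_left (hp.coprime h))]
  have : gt (s * p ^ 2) (p ^ 2) = 0 := by rw [gt, gs_sq_sq hp, zero_div]
  rw [this]; ring

theorem gs_cube (hp : PrP p) (hs : ¬ p ∣ s) : gs (s * p ^ 2) (p ^ 3) = -(N p : ℂ) ^ 2 := by
  classical
  have : NeZero p := ⟨hp.ne_zero⟩
  have : NeZero (p ^ 2) := ⟨pow_ne_zero 2 hp.ne_zero⟩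
  have h := gs_mul_of_dvd (r := p) (s := p ^ 2) (pow_ne_zero 2 hp.ne_zero) (fun x y h => by
    rw [sym_mul_right _ hp.ne_zero (pow_ne_zero 2 hp.ne_zero),
      sym_mul_right _ hp.ne_zero (pow_ne_zero 2 hp.ne_zero), sym_pow_right _ hp.ne_zero,
      sym_pow_right _ hp.ne_zero, sym_periodic h]) s
  rw [mul_comm s (p ^ 2), show p ^ 3 = p * p ^ 2 by ring, h]
  have h1 : ∀ y : Rs p, toC (sym (outR p y) (p * p ^ 2)) * psi p (rs p s * y) =
      psi p (rs p s * y) - if y = 0 then 1 else 0 := by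
    intro y
    obtain ⟨x, rfl⟩ := rs_surj p y
    have h2 : sym (outR p (rs p x)) (p * p ^ 2) = sym x p ^ 3 := by
      rw [sym_mul_right _ hp.ne_zero (pow_ne_zero 2 hp.ne_zero), sym_pow_right _ hp.ne_zero,
        sym_periodic (a := outR p (rs p x)) (a' := x) (b := p) (by rw [← rs_eq, rs_outR])]
      ring
    rw [h2]
    by_cases hx : rs p x = 0
    · rw [if_pos hx, hx, mul_zero, AddChar.map_zero_eq_one, sub_self]
      have : sym x p = 0 := by
        rw [sym_eq_zero, isCoprime_comm, hp.2.coprime_iff_not_dvd, not_not]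
        exact rs_eq_zero.1 hx
      rw [this]; simp
    · rw [if_neg hx, sub_zero]
      have : IsCoprime x p := by
        rw [isCoprime_comm, hp.2.coprime_iff_not_dvd]
        intro h; exact hx (rs_eq_zero.2 h)
      rw [sym_cube this]; simp
  rw [Finset.sum_congr rfl (fun y _ => h1 y), Finset.sum_sub_distrib, sum_psi_mul]
  have h3 : ¬ p ∣ lam * s := by
    intro h4
    rcases hp.2.dvd_or_dvd h4 with h5 | h5
    · exact not_dvd_lam hp.2 hp.not_lam h5
    · exact hs h5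
  rw [if_neg h3, Finset.sum_ite_eq' Finset.univ (0 : Rs p) (fun _ => (1 : ℂ)),
    if_pos (Finset.mem_univ _), N_pow]
  push_cast
  ring

theorem gt_cube (hp : PrP p) (hs : ¬ p ∣ s) : gt (s * p ^ 2) (p ^ 3) = -(√(N p : ℝ) : ℂ) := by
  have h0 := sqrt_N_pos hp.ne_zero
  have h1 : ((√(N p : ℝ) : ℝ) : ℂ) ≠ 0 := by exact_mod_cast h0.ne'
  have h2 : ((√(N p : ℝ) : ℝ) : ℂ) ^ 2 = N p := by
    rw [← Complex.ofReal_pow, Real.sq_sqrt (Nat.cast_nonneg _)]; simp
  have h3 : √(N (p ^ 3) : ℝ) = √(N p : ℝ) ^ 3 := by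
    rw [N_pow, Nat.cast_pow, Real.sqrt_eq_rpow, Real.sqrt_eq_rpow, ← Real.rpow_natCast,
      ← Real.rpow_natCast, ← Real.rpow_mul (Nat.cast_nonneg _), ← Real.rpow_mul (Nat.cast_nonneg _)]
    ring_nf
  rw [gt, gs_cube hp hs, h3, ← h2]
  push_cast
  field_simp

theorem gt_L5 (hp : PrP p) (hs : ¬ p ∣ s) (ha : Primary a) (h : ¬ p ∣ a) :
    gt (s * p ^ 2) (p ^ 3 * a) = -(√(N p : ℝ) : ℂ) * gt (s * p ^ 2) a := by
  rw [gt_mul_primary _ (hp.1.pow 3) ha (IsCoprime.pow_left (hp.coprime h)), gt_cube hp hs,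
    sym_pow_left, sym_cube (hp.coprime h)]
  simp

theorem gt_L5' (hp : PrP p) (hs : ¬ p ∣ s) (ha : Primary a) (h : p ∣ a) :
    gt (s * p ^ 2) (p ^ 3 * a) = 0 := by
  obtain ⟨b, rfl⟩ := h
  have hb : Primary b := hp.1.of_mul ha
  have := gs_vanish (n := 2) (m := 3) hp hb hs (by norm_num)
  rw [gt, show p ^ 3 * (p * b) = p * b * p ^ 3 by ring, this, zero_div]

theorem gt_L6 (hp : PrP p) (ha : Primary a) (h : ¬ p ∣ a) :
    gt (s * p ^ 3) a = gt s a := by
  rw [gt, mul_comm s, gs_cube_mul s ha.ne_zero (hp.coprime h), gt]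

end

end Vale.Agent.P006.V2
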