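import Vale.Agent.P006.V2.Summ

/-!
P006, block T1A: the mean square bound for the sums restricted by coprimality.
-/

namespace Vale.Agent.P006.V2

open Vale.Agent.P006
open scoped ENNReal BigOperators
open Filter Topology

theorem N_pos_real {x : O} (h : x ≠ 0) : (0 : ℝ) < N x := by exact_mod_cast N_pos h

theorem one_le_N {x : O} (h : x ≠ 0) : (1 : ℝ) ≤ N x := by exact_mod_cast N_pos h

/-- weight in the Cauchy-Schwarz inequality -/
noncomputable def wt (δ : ℝ) (x : O × O × O) : ℝ≥0∞ := ENNReal.ofReal ((N x.2.2 : ℝ) ^ (-(1 + δ)))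

/-- the squared terms -/
noncomputable def sqt (F : O → O → ℝ → ℝ) (δ Y : ℝ) (x : O × O × O) : ℝ≥0∞ :=
  ENNReal.ofReal ((N x.2.2 : ℝ) ^ (1 + δ) * N x.1 * N x.2.2 *
    F x.2.1 1 (Y / ((N x.1 : ℝ) ^ 2 * (N x.2.2 : ℝ) ^ 3)) ^ 2)

theorem sum_wt_le {δ : ℝ} (hδ : 0 < δ) (r : O) :
    ∑' x : {x // Idx r x}, wt δ x ≤
      (∑' _ : Divs r, (1 : ℝ≥0∞)) * ENNReal.ofReal (zsum (1 + δ)) := by
  have h1 : (∑' _ : Divs r, (1 : ℝ≥0∞)) * ENNReal.ofReal (zsum (1 + δ)) =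
      ∑' y : Divs r × O, ENNReal.ofReal ((N y.2 : ℝ) ^ (-(1 + δ))) := by
    rw [← ennreal_tsum_N (by linarith), ENNReal.tsum_prod', ← ENNReal.tsum_mul_right]
    refine tsum_congr fun a => ?_
    rw [one_mul]
  rw [h1]
  let f : {x // Idx r x} → Divs r × O := fun x => (⟨(x.1.1, x.1.2.1), x.2.1, x.2.2.1⟩, x.1.2.2)
  have hf : Function.Injective f := by
    rintro ⟨⟨t, s, k⟩, h⟩ ⟨⟨t', s', k'⟩, h'⟩ he
    simp only [f, Prod.mk.injEq, Subtype.mk.injEq] at he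
    obtain ⟨⟨rfl, rfl⟩, rfl⟩ := he
    rfl
  exact ENNReal.tsum_comp_le_tsum_of_injective hf
    (fun y : Divs r × O => ENNReal.ofReal ((N y.2 : ℝ) ^ (-(1 + δ))))

theorem sq_explicit {F : O → O → ℝ → ℝ} (h : RecI F) {δ : ℝ} {r : O} (hr : PP r) {Y : ℝ}
    (hY : 0 < Y) :
    ENNReal.ofReal (F r r Y ^ 2) ≤
      (∑' x : {x // Idx r x}, wt δ x) * ∑' x : {x // Idx r x}, sqt F δ Y x := by
  have h1 := h.explicit r hr 1 primary_one (fun q hq _ h1 => hq.2.not_isUnit (isUnit_of_dvd_one h1)) Y hY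
  rw [mul_one] at h1
  have h2 : ENNReal.ofReal (F r r Y ^ 2) ≤ (∑' x : {x // Idx r x}, term F 1 Y x) ^ 2 := by
    rw [ENNReal.ofReal_pow (h.nonneg _ _ _)]
    exact pow_le_pow_left' h1 2
  refine h2.trans ?_
  let g : {x // Idx r x} → ℝ≥0∞ := fun x => ENNReal.ofReal ((N x.1.2.2 : ℝ) ^ (1 + δ) *
    (√(N x.1.1) * √(N x.1.2.2) * F x.1.2.1 1 (Y / ((N x.1.1 : ℝ) ^ 2 * (N x.1.2.2 : ℝ) ^ 3))))
  have h3 : ∀ x : {x // Idx r x}, term F 1 Y x = wt δ x * g x := by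
    intro x
    have hk : (0 : ℝ) < N x.1.2.2 := N_pos_real x.2.2.2.1.ne_zero
    rw [term, wt, ← ENNReal.ofReal_mul (by positivity), mul_one, ← mul_assoc,
      ← Real.rpow_add hk]
    simp
  have h4 : ∀ x : {x // Idx r x}, wt δ x * g x ^ 2 = sqt F δ Y x := by
    intro x
    have hk : (0 : ℝ) < N x.1.2.2 := N_pos_real x.2.2.2.1.ne_zero
    have hF := h.nonneg x.1.2.1 1 (Y / ((N x.1.1 : ℝ) ^ 2 * (N x.1.2.2 : ℝ) ^ 3))
    simp only [g]
    rw [wt, sqt, ← ENNReal.ofReal_pow (by positivity), ← ENNReal.ofReal_mul (by positivity)]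
    congr 1
    rw [mul_pow, mul_pow, mul_pow, Real.sq_sqrt (Nat.cast_nonneg _),
      Real.sq_sqrt (Nat.cast_nonneg _), ← mul_assoc, sq ((N x.1.2.2 : ℝ) ^ (1 + δ)),
      ← mul_assoc ((N x.1.2.2 : ℝ) ^ (-(1 + δ))), ← Real.rpow_add hk]
    simp
    ring
  rw [tsum_congr h3]
  refine (ennreal_cs _ _).trans (le_of_eq ?_)
  rw [tsum_congr h4]

/-- the hypothesis/conclusion of the mean square bound: `m` runs over any finite set of squarefree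
primary elements of norm `≤ R`, the length `y m` is any number in `[Y, 2Y]` -/
def MSBound (F : O → O → ℝ → ℝ) (D : O → O) (K1 K2 α η : ℝ) : Prop :=
  ∀ R Y : ℝ, 1 ≤ R → 0 < Y → ∀ (S : Finset O) (y : O → ℝ),
    (∀ m ∈ S, PP m ∧ (N m : ℝ) ≤ R) → (∀ m ∈ S, Y ≤ y m ∧ y m ≤ 2 * Y) →
      ∑ m ∈ S, F m (D m) (y m) ^ 2 ≤ (K1 * R + K2) * R ^ η * Y ^ α

/-- the inner sum over `s` for fixed `t, k` -/
theorem inner_bound {F : O → O → ℝ → ℝ} {K1 K2 α η : ℝ} (hη : 0 < η)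
    (hK1 : 0 ≤ K1) (hK2 : 0 ≤ K2) (hyp : MSBound F (fun _ => 1) K1 K2 α η)
    {R Y δ : ℝ} (hR : 1 ≤ R) (hY : 0 < Y) (S : Finset O) (y : O → ℝ)
    (hS : ∀ m ∈ S, PP m ∧ (N m : ℝ) ≤ R) (hy : ∀ m ∈ S, Y ≤ y m ∧ y m ≤ 2 * Y)
    {t k : O} (ht : Primary t) (hk : Primary k) :
    ∑' s : {s : O // t * s ∈ S}, sqt F δ (y (t * s)) (t, s.1, k) ≤
      ENNReal.ofReal ((K1 * R + K2) * R ^ η * Y ^ α) *
        (ENNReal.ofReal ((N t : ℝ) ^ (-(2 * α - 1))) *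
          ENNReal.ofReal ((N k : ℝ) ^ (-(3 * α - 2 - δ)))) := by
  classical
  have ht0 : (0 : ℝ) < N t := N_pos_real ht.ne_zero
  have hk0 : (0 : ℝ) < N k := N_pos_real hk.ne_zero
  have ht1 : (1 : ℝ) ≤ N t := one_le_N ht.ne_zero
  have hinj : Set.InjOn (fun s : O => t * s) ((fun s : O => t * s) ⁻¹' (S : Set O)) :=
    (mul_right_injective₀ ht.ne_zero).injOn
  set S' : Finset O := S.preimage (fun s : O => t * s) hinj with hS'
  have hmem : ∀ s, s ∈ S' ↔ t * s ∈ S := fun s => by rw [hS', Finset.mem_preimage]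
  have h1 : ∑' s : {s : O // t * s ∈ S}, sqt F δ (y (t * s)) (t, s.1, k) =
      ∑ s ∈ S', sqt F δ (y (t * s)) (t, s, k) := by
    rw [← Finset.tsum_subtype S' (fun s => sqt F δ (y (t * s)) (t, s, k))]
    exact (Equiv.tsum_eq (Equiv.subtypeEquivRight hmem)
      (fun s : {s : O // t * s ∈ S} => sqt F δ (y (t * s)) (t, s.1, k))).symm
  rw [h1]
  set c : ℝ := (N t : ℝ) ^ 2 * (N k : ℝ) ^ 3 with hc
  have hc0 : 0 < c := by positivity
  set Y' : ℝ := Y / c with hY'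
  have hY'0 : 0 < Y' := by positivity
  have hPP : ∀ s ∈ S', PP s ∧ (N s : ℝ) ≤ R / N t := by
    intro s hs
    obtain ⟨h2, h3⟩ := hS _ ((hmem s).1 hs)
    refine ⟨⟨ht.of_mul h2.1, h2.2.squarefree_of_dvd (dvd_mul_left s t)⟩, ?_⟩
    rw [le_div_iff₀ ht0]
    rw [N_mul] at h3
    push_cast at h3
    linarith
  have hyy : ∀ s ∈ S', Y' ≤ y (t * s) / c ∧ y (t * s) / c ≤ 2 * Y' := by
    intro s hs
    obtain ⟨h2, h3⟩ := hy _ ((hmem s).1 hs)
    constructor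
    · exact div_le_div_of_nonneg_right h2 hc0.le
    · rw [hY', ← mul_div_assoc]; exact div_le_div_of_nonneg_right h3 hc0.le
  have h2 : ∑ s ∈ S', sqt F δ (y (t * s)) (t, s, k) =
      ENNReal.ofReal ((N k : ℝ) ^ (1 + δ) * N t * N k *
        ∑ s ∈ S', F s 1 (y (t * s) / c) ^ 2) := by
    rw [Finset.mul_sum, ENNReal.ofReal_sum_of_nonneg (fun s _ => by positivity)]
    rfl
  rw [h2, ← ENNReal.ofReal_mul (by positivity), ← ENNReal.ofReal_mul (by positivity)]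
  apply ENNReal.ofReal_le_ofReal
  by_cases hemp : S' = ∅
  · rw [hemp, Finset.sum_empty, mul_zero]; positivity
  obtain ⟨s0, hs0⟩ := Finset.nonempty_iff_ne_empty.2 hemp
  have hRt : 1 ≤ R / N t := (one_le_N (hPP s0 hs0).1.ne_zero).trans (hPP s0 hs0).2
  have h3 := hyp (R / N t) Y' hRt hY'0 S' (fun s => y (t * s) / c) hPP hyy
  simp only at h3
  have h4 : (K1 * (R / N t) + K2) * (R / N t) ^ η ≤ (K1 * R + K2) * R ^ η := by
    have h5 : R / N t ≤ R := div_le_self (by linarith) ht1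
    have h6 : (R / N t) ^ η ≤ R ^ η := Real.rpow_le_rpow (by positivity) h5 hη.le
    have h7 : K1 * (R / N t) ≤ K1 * R := mul_le_mul_of_nonneg_left h5 hK1
    apply mul_le_mul (by linarith) h6 (by positivity) (by positivity)
  have h5 : Y' ^ α = Y ^ α * ((N t : ℝ) ^ (-(2 * α)) * (N k : ℝ) ^ (-(3 * α))) := by
    rw [hY', hc, Real.div_rpow hY.le (by positivity), Real.mul_rpow (by positivity) (by positivity),
      div_eq_mul_inv, mul_inv, ← Real.rpow_natCast (N t : ℝ) 2, ← Real.rpow_natCast (N k : ℝ) 3,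
      ← Real.rpow_mul ht0.le, ← Real.rpow_mul hk0.le, ← Real.rpow_neg ht0.le,
      ← Real.rpow_neg hk0.le]
    norm_num
  have h6 : (N t : ℝ) ^ (-(2 * α - 1)) = N t * (N t : ℝ) ^ (-(2 * α)) := by
    rw [show -(2 * α - 1) = 1 + -(2 * α) by ring, Real.rpow_add ht0, Real.rpow_one]
  have h7 : (N k : ℝ) ^ (-(3 * α - 2 - δ)) =
      (N k : ℝ) ^ (1 + δ) * N k * (N k : ℝ) ^ (-(3 * α)) := by
    rw [show -(3 * α - 2 - δ) = (1 + δ) + 1 + -(3 * α) by ring, Real.rpow_add hk0,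
      Real.rpow_add hk0, Real.rpow_one]
  calc (N k : ℝ) ^ (1 + δ) * N t * N k * ∑ s ∈ S', F s 1 (y (t * s) / c) ^ 2
      ≤ (N k : ℝ) ^ (1 + δ) * N t * N k * ((K1 * (R / N t) + K2) * (R / N t) ^ η * Y' ^ α) := by
        gcongr
    _ ≤ (N k : ℝ) ^ (1 + δ) * N t * N k * ((K1 * R + K2) * R ^ η * Y' ^ α) := by
        gcongr
    _ = (K1 * R + K2) * R ^ η * Y ^ α *
        ((N t : ℝ) ^ (-(2 * α - 1)) * (N k : ℝ) ^ (-(3 * α - 2 - δ))) := by
        rw [h5, h6, h7]; ring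

theorem sum_sqt_le {F : O → O → ℝ → ℝ} {K1 K2 α η : ℝ} (hα : 1 < α) (hη : 0 < η)
    (hK1 : 0 ≤ K1) (hK2 : 0 ≤ K2) (hyp : MSBound F (fun _ => 1) K1 K2 α η)
    {R Y δ : ℝ} (hR : 1 ≤ R) (hY : 0 < Y) (hδ : 1 < 3 * α - 2 - δ) (S : Finset O) (y : O → ℝ)
    (hS : ∀ m ∈ S, PP m ∧ (N m : ℝ) ≤ R) (hy : ∀ m ∈ S, Y ≤ y m ∧ y m ≤ 2 * Y) :
    ∑ r ∈ S, ∑' x : {x // Idx r x}, sqt F δ (y r) x ≤
      ENNReal.ofReal ((K1 * R + K2) * R ^ η * Y ^ α) *
        (ENNReal.ofReal (zsum (2 * α - 1)) * ENNReal.ofReal (zsum (3 * α - 2 - δ))) := by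
  classical
  -- reorganise
  let f : (Σ r : {r // r ∈ S}, {x // Idx r.1 x}) →
      (Σ tk : {t : O // Primary t} × {k : O // Primary k}, {s : O // tk.1.1 * s ∈ S}) :=
    fun y => ⟨(⟨y.2.1.1, y.2.2.1⟩, ⟨y.2.1.2.2, y.2.2.2.2.1⟩), ⟨y.2.1.2.1, by
      have := y.2.2.2.1; simp only; rw [this]; exact y.1.2⟩⟩
  have hf : Function.Injective f := by
    rintro ⟨⟨r, hr⟩, ⟨⟨t, s, k⟩, h1, h2, h3, h4⟩⟩ ⟨⟨r', hr'⟩, ⟨⟨t', s', k'⟩, h1', h2', h3', h4'⟩⟩ he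
    simp only [f, Sigma.mk.injEq, Prod.mk.injEq, Subtype.mk.injEq] at he
    obtain ⟨⟨rfl, rfl⟩, he⟩ := he
    have hs : s = s' := by
      have := eq_of_heq he
      simpa using this
    subst hs
    have hrr : r = r' := by
      simp only at h2 h2'
      rw [← h2, ← h2']
    subst hrr
    rfl
  have h1 : ∑ r ∈ S, ∑' x : {x // Idx r x}, sqt F δ (y r) x =
      ∑' z : (Σ r : {r // r ∈ S}, {x // Idx r.1 x}), sqt F δ (y (z.2.1.1 * z.2.1.2.1)) z.2.1 := by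
    rw [ENNReal.tsum_sigma', ← Finset.tsum_subtype S (fun r => ∑' x : {x // Idx r x},
      sqt F δ (y r) x)]
    refine tsum_congr fun r => tsum_congr fun x => ?_
    rw [x.2.2.1]
  have h2 : ∑' z : (Σ r : {r // r ∈ S}, {x // Idx r.1 x}),
      sqt F δ (y (z.2.1.1 * z.2.1.2.1)) z.2.1 ≤
      ∑' z : (Σ tk : {t : O // Primary t} × {k : O // Primary k}, {s : O // tk.1.1 * s ∈ S}),
        sqt F δ (y (z.1.1.1 * z.2.1)) (z.1.1.1, z.2.1, z.1.2.1) :=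
    ENNReal.tsum_comp_le_tsum_of_injective hf
      (fun z => sqt F δ (y (z.1.1.1 * z.2.1)) (z.1.1.1, z.2.1, z.1.2.1))
  rw [h1]
  refine h2.trans ?_
  rw [ENNReal.tsum_sigma', ENNReal.tsum_prod']
  have h3 : ∀ (t : {t : O // Primary t}) (k : {k : O // Primary k}),
      ∑' s : {s : O // t.1 * s ∈ S}, sqt F δ (y (t.1 * s.1)) (t.1, s.1, k.1) ≤
      ENNReal.ofReal ((K1 * R + K2) * R ^ η * Y ^ α) *
        (ENNReal.ofReal ((N t.1 : ℝ) ^ (-(2 * α - 1))) *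
          ENNReal.ofReal ((N k.1 : ℝ) ^ (-(3 * α - 2 - δ)))) := fun t k =>
    inner_bound hη hK1 hK2 hyp hR hY S y hS hy t.2 k.2
  refine (ENNReal.tsum_le_tsum fun t => ENNReal.tsum_le_tsum fun k => h3 t k).trans ?_
  have h4 : ∀ β : ℝ, 1 < β → ∑' k : {k : O // Primary k}, ENNReal.ofReal ((N k.1 : ℝ) ^ (-β)) ≤
      ENNReal.ofReal (zsum β) := by
    intro β hβ
    rw [← ennreal_tsum_N hβ]
    exact ENNReal.tsum_comp_le_tsum_of_injective Subtype.val_injective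
      (fun k : O => ENNReal.ofReal ((N k : ℝ) ^ (-β)))
  simp_rw [ENNReal.tsum_mul_left]
  refine mul_le_mul' le_rfl ?_
  rw [ENNReal.tsum_mul_right]
  exact mul_le_mul' (h4 _ (by linarith)) (h4 _ hδ)

/-- **Mean square bound for the coprimality-restricted sums.** -/
theorem meanSq {α η : ℝ} (hα : 1 < α) (hη : 0 < η) : ∃ C : ℝ, 0 ≤ C ∧
    ∀ F : O → O → ℝ → ℝ, RecI F → ∀ K1 K2 : ℝ, 0 ≤ K1 → 0 ≤ K2 →
      MSBound F (fun _ => 1) K1 K2 α η → MSBound F id (C * K1) (C * K2) α (2 * η) := by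
  obtain ⟨D, hD1, hD⟩ := divisor_bound hη
  set δ : ℝ := (3 * α - 3) / 2 with hδ
  have hδ0 : 0 < δ := by rw [hδ]; linarith
  have hδ1 : 1 < 3 * α - 2 - δ := by rw [hδ]; linarith
  refine ⟨D * zsum (1 + δ) * (zsum (2 * α - 1) * zsum (3 * α - 2 - δ)), ?_, ?_⟩
  · have h1 := zsum_nonneg (1 + δ)
    have h2 := zsum_nonneg (2 * α - 1)
    have h3 := zsum_nonneg (3 * α - 2 - δ)
    positivity
  intro F hF K1 K2 hK1 hK2 hyp R Y hR hY S y hS hy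
  have hR0 : 0 < R := by linarith
  have h1 : ∀ r ∈ S, ENNReal.ofReal (F r (id r) (y r) ^ 2) ≤
      ENNReal.ofReal (D * R ^ η * zsum (1 + δ)) * ∑' x : {x // Idx r x}, sqt F δ (y r) x := by
    intro r hr
    refine (sq_explicit hF (hS r hr).1 (lt_of_lt_of_le hY (hy r hr).1)).trans (mul_le_mul' ?_ le_rfl)
    refine (sum_wt_le hδ0 r).trans ?_
    rw [ENNReal.ofReal_mul (by positivity)]
    refine mul_le_mul' ((hD r (hS r hr).1).trans ?_) le_rfl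
    apply ENNReal.ofReal_le_ofReal
    have : (N r : ℝ) ^ η ≤ R ^ η := Real.rpow_le_rpow (Nat.cast_nonneg _) (hS r hr).2 hη.le
    gcongr
  have h2 : ENNReal.ofReal (∑ r ∈ S, F r (id r) (y r) ^ 2) ≤
      ENNReal.ofReal (D * R ^ η * zsum (1 + δ)) *
      (ENNReal.ofReal ((K1 * R + K2) * R ^ η * Y ^ α) *
        (ENNReal.ofReal (zsum (2 * α - 1)) * ENNReal.ofReal (zsum (3 * α - 2 - δ)))) := by
    rw [ENNReal.ofReal_sum_of_nonneg (fun r _ => by positivity)]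
    refine (Finset.sum_le_sum h1).trans ?_
    rw [← Finset.mul_sum]
    exact mul_le_mul' le_rfl (sum_sqt_le hα hη hK1 hK2 hyp hR hY hδ1 S y hS hy)
  have hz1 := zsum_nonneg (1 + δ)
  have hz2 := zsum_nonneg (2 * α - 1)
  have hz3 := zsum_nonneg (3 * α - 2 - δ)
  rw [← ENNReal.ofReal_mul hz2, ← ENNReal.ofReal_mul (by positivity),
    ← ENNReal.ofReal_mul (by positivity)] at h2
  have h3 := (ENNReal.ofReal_le_ofReal_iff (by positivity)).1 h2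
  refine h3.trans (le_of_eq ?_)
  rw [show 2 * η = η + η by ring, Real.rpow_add hR0]
  ring

end Vale.Agent.P006.V2
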