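import Vale.Agent.P006.CR.Residue
import Mathlib.Topology.Algebra.InfiniteSum.ENNReal
import Mathlib.Analysis.SpecialFunctions.Pow.Asymptotics

/-!
P006, block T1A (V2a): removal of the coprimality condition in the Type I sums.
Abstract recursion and its explicit solution (as an inequality in `ℝ≥0∞`).
-/

namespace Vale.Agent.P006.V2

open Vale.Agent.P006
open scoped ENNReal BigOperators
open Filter Topology

/-- primary primes -/
def PrP (p : O) : Prop := Primary p ∧ Prime p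

theorem PrP.ne_zero {p : O} (h : PrP p) : p ≠ 0 := h.2.ne_zero

theorem PrP.two_le {p : O} (h : PrP p) : 2 ≤ N p := by
  have h1 : 0 < N p := N_pos h.ne_zero
  have h2 : N p ≠ 1 := fun h3 => h.2.not_isUnit (isUnit_iff_N.2 h3)
  omega

/-- The recursion satisfied by the restricted sums (as an inequality). -/
structure RecI (F : O → O → ℝ → ℝ) : Prop where
  nonneg : ∀ s D Y, 0 ≤ F s D Y
  ineq : ∀ s D p : O, Primary s → PrP p → ¬ p ∣ s → ¬ p ∣ D → ∀ Y : ℝ, 0 < Y →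
    F (s * p) (D * p) Y ≤ F (s * p) D Y + √(N p) * F s D (Y / (N p : ℝ) ^ 2) +
      √(N p) * F (s * p) (D * p) (Y / (N p : ℝ) ^ 3)
  small : ∀ s D : O, Primary s → ∃ C : ℝ, ∀ Y : ℝ, 0 < Y → Y ≤ 1 → F s D Y ≤ C * Y ^ (5 / 6 : ℝ)

variable {F : O → O → ℝ → ℝ}

theorem RecI.iterate (h : RecI F) {s D p : O} (hs0 : Primary s) (hp : PrP p) (hs : ¬ p ∣ s) (hD : ¬ p ∣ D)
    {Y : ℝ} (hY : 0 < Y) (J : ℕ) :
    F (s * p) (D * p) Y ≤ ∑ j ∈ Finset.range J, (√(N p)) ^ j *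
        (F (s * p) D (Y / (N p : ℝ) ^ (3 * j)) +
          √(N p) * F s D (Y / (N p : ℝ) ^ (3 * j + 2))) +
      (√(N p)) ^ J * F (s * p) (D * p) (Y / (N p : ℝ) ^ (3 * J)) := by
  have hN : (0 : ℝ) < N p := by exact_mod_cast N_pos hp.ne_zero
  induction J with
  | zero => simp
  | succ J ih =>
    have h1 := h.ineq s D p hs0 hp hs hD (Y / (N p : ℝ) ^ (3 * J)) (by positivity)
    have h2 : Y / (N p : ℝ) ^ (3 * J) / (N p : ℝ) ^ 2 = Y / (N p : ℝ) ^ (3 * J + 2) := by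
      rw [div_div, ← pow_add]
    have h3 : Y / (N p : ℝ) ^ (3 * J) / (N p : ℝ) ^ 3 = Y / (N p : ℝ) ^ (3 * (J + 1)) := by
      rw [div_div, ← pow_add]; congr 2
    rw [h2, h3] at h1
    have h4 : (0 : ℝ) ≤ (√(N p)) ^ J := by positivity
    have h5 := mul_le_mul_of_nonneg_left h1 h4
    rw [Finset.sum_range_succ]
    refine ih.trans ?_
    rw [add_assoc]
    refine add_le_add le_rfl (h5.trans (le_of_eq ?_))
    ring

theorem RecI.tsum_le (h : RecI F) {s D p : O} (hs0 : Primary s) (hp : PrP p) (hs : ¬ p ∣ s)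
    (hD : ¬ p ∣ D) {Y : ℝ} (hY : 0 < Y) :
    ENNReal.ofReal (F (s * p) (D * p) Y) ≤ ∑' j : ℕ, ENNReal.ofReal ((√(N p)) ^ j *
        (F (s * p) D (Y / (N p : ℝ) ^ (3 * j)) +
          √(N p) * F s D (Y / (N p : ℝ) ^ (3 * j + 2)))) := by
  have hN : (0 : ℝ) < N p := by exact_mod_cast N_pos hp.ne_zero
  have hN2 : (2 : ℝ) ≤ N p := by exact_mod_cast hp.two_le
  obtain ⟨C, hC⟩ := h.small (s * p) (D * p) (hs0.mul hp.1)
  set T : ℝ≥0∞ := ∑' j : ℕ, ENNReal.ofReal ((√(N p)) ^ j *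
        (F (s * p) D (Y / (N p : ℝ) ^ (3 * j)) +
          √(N p) * F s D (Y / (N p : ℝ) ^ (3 * j + 2)))) with hT
  -- the remainder tends to zero
  have hrem : Tendsto (fun J : ℕ => (√(N p)) ^ J * F (s * p) (D * p) (Y / (N p : ℝ) ^ (3 * J)))
      atTop (𝓝 0) := by
    have hev : ∀ᶠ J : ℕ in atTop, (√(N p)) ^ J * F (s * p) (D * p) (Y / (N p : ℝ) ^ (3 * J)) ≤
        |C| * Y ^ (5 / 6 : ℝ) * ((1 : ℝ) / 2) ^ J := by
      have h1 : ∀ᶠ J : ℕ in atTop, Y ≤ (N p : ℝ) ^ (3 * J) := by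
        have : Tendsto (fun J : ℕ => (N p : ℝ) ^ (3 * J)) atTop atTop := by
          simp_rw [pow_mul]
          apply tendsto_pow_atTop_atTop_of_one_lt
          have : (1 : ℝ) < N p := by linarith
          exact one_lt_pow₀ this (by norm_num)
        exact this.eventually_ge_atTop Y
      filter_upwards [h1] with J hJ
      have hpos : (0 : ℝ) < (N p : ℝ) ^ (3 * J) := by positivity
      have h2 := hC (Y / (N p : ℝ) ^ (3 * J)) (by positivity) ((div_le_one hpos).2 hJ)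
      have h3 : (Y / (N p : ℝ) ^ (3 * J)) ^ (5 / 6 : ℝ) =
          Y ^ (5 / 6 : ℝ) * ((N p : ℝ) ^ (-(5 / 2) : ℝ)) ^ J := by
        rw [Real.div_rpow hY.le hpos.le, div_eq_mul_inv]
        congr 1
        rw [← Real.rpow_natCast (N p : ℝ) (3 * J), ← Real.rpow_mul hN.le, ← Real.rpow_neg hN.le,
          ← Real.rpow_natCast ((N p : ℝ) ^ (-(5 / 2) : ℝ)) J, ← Real.rpow_mul hN.le]
        congr 1
        push_cast
        ring
      have h4 : (√(N p)) ^ J * ((N p : ℝ) ^ (-(5 / 2) : ℝ)) ^ J = ((N p : ℝ) ^ (-2 : ℝ)) ^ J := by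
        rw [← mul_pow, Real.sqrt_eq_rpow, ← Real.rpow_add hN]
        norm_num
      have h5 : (N p : ℝ) ^ (-2 : ℝ) ≤ 1 / 2 := by
        rw [Real.rpow_neg hN.le, one_div]
        apply inv_anti₀ (by norm_num)
        rw [Real.rpow_two]
        nlinarith
      calc (√(N p)) ^ J * F (s * p) (D * p) (Y / (N p : ℝ) ^ (3 * J))
          ≤ (√(N p)) ^ J * (C * (Y / (N p : ℝ) ^ (3 * J)) ^ (5 / 6 : ℝ)) :=
            mul_le_mul_of_nonneg_left h2 (by positivity)
        _ = C * Y ^ (5 / 6 : ℝ) * ((√(N p)) ^ J * ((N p : ℝ) ^ (-(5 / 2) : ℝ)) ^ J) := by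
            rw [h3]; ring
        _ = C * Y ^ (5 / 6 : ℝ) * ((N p : ℝ) ^ (-2 : ℝ)) ^ J := by rw [h4]
        _ ≤ |C| * Y ^ (5 / 6 : ℝ) * ((1 : ℝ) / 2) ^ J := by
            have h6 : ((N p : ℝ) ^ (-2 : ℝ)) ^ J ≤ ((1 : ℝ) / 2) ^ J :=
              pow_le_pow_left₀ (by positivity) h5 J
            have h7 : 0 ≤ ((N p : ℝ) ^ (-2 : ℝ)) ^ J := by positivity
            have h8 : 0 ≤ Y ^ (5 / 6 : ℝ) := by positivity
            apply mul_le_mul (mul_le_mul_of_nonneg_right (le_abs_self C) h8) h6 h7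
            positivity
    have hlim : Tendsto (fun J : ℕ => |C| * Y ^ (5 / 6 : ℝ) * ((1 : ℝ) / 2) ^ J) atTop (𝓝 0) := by
      have := (tendsto_pow_atTop_nhds_zero_of_lt_one (r := (1 : ℝ) / 2) (by norm_num)
        (by norm_num)).const_mul (|C| * Y ^ (5 / 6 : ℝ))
      simpa using this
    refine squeeze_zero' (Eventually.of_forall fun J => ?_) hev hlim
    exact mul_nonneg (by positivity) (h.nonneg _ _ _)
  have hb : ∀ J : ℕ, ENNReal.ofReal (F (s * p) (D * p) Y) ≤ T +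
      ENNReal.ofReal ((√(N p)) ^ J * F (s * p) (D * p) (Y / (N p : ℝ) ^ (3 * J))) := by
    intro J
    refine (ENNReal.ofReal_le_ofReal (h.iterate hs0 hp hs hD hY J)).trans ?_
    refine ENNReal.ofReal_add_le.trans ?_
    refine add_le_add ?_ le_rfl
    rw [ENNReal.ofReal_sum_of_nonneg]
    · exact ENNReal.sum_le_tsum _
    · intro j _
      have h1 := h.nonneg (s * p) D (Y / (N p : ℝ) ^ (3 * j))
      have h2 := h.nonneg s D (Y / (N p : ℝ) ^ (3 * j + 2))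
      positivity
  have hlim2 : Tendsto (fun J : ℕ => T +
      ENNReal.ofReal ((√(N p)) ^ J * F (s * p) (D * p) (Y / (N p : ℝ) ^ (3 * J)))) atTop
      (𝓝 (T + 0)) := by
    apply Tendsto.add tendsto_const_nhds
    have := ENNReal.tendsto_ofReal hrem
    simpa using this
  rw [add_zero] at hlim2
  exact ge_of_tendsto' hlim2 hb

end Vale.Agent.P006.V2
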