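import Vale.Agent.P006.V2.Local
import Vale.Agent.P006.V2.MeanSq
import Vale.Agent.P006.H845.Order

/-!
P006, block T1A: the sums of Gauss sums with a coprimality condition, their local recursion.
-/

namespace Vale.Agent.P006.V2

open Vale.Agent.P006
open scoped BigOperators
open Filter Topology

/-- a bounded weight vanishing for large arguments -/
structure Wt (W : ℝ → ℂ) (M B : ℝ) : Prop where
  zero : ∀ x, M < x → W x = 0
  bdd : ∀ x, ‖W x‖ ≤ B
  M_pos : 0 < M

/-- `a` is primary and prime to `D` -/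
def ok (D a : O) : Prop := Primary a ∧ IsCoprime a D

/-- summand -/
noncomputable def sm (W : ℝ → ℂ) (m D : O) (Y : ℝ) (a : O) : ℂ :=
  open Classical in
  if ok D a then gt m a * W (N a / Y) else 0

/-- `S(m; D; Y) = ∑_{a primary, (a,D)=1} g̃(m,a) W(N(a)/Y)` -/
noncomputable def SA (W : ℝ → ℂ) (m D : O) (Y : ℝ) : ℂ := ∑' a : O, sm W m D Y a

variable {W : ℝ → ℂ} {M B : ℝ}

theorem sm_support (hW : Wt W M B) (m D : O) {Y : ℝ} (hY : 0 < Y) :
    (Function.support (sm W m D Y)) ⊆ {a : O | (N a : ℝ) ≤ M * Y} := by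
  intro a ha
  by_contra h
  apply ha
  simp only [Set.mem_ofPred_eq, not_le] at h
  rw [sm]
  have : W (N a / Y) = 0 := hW.zero _ (by rwa [lt_div_iff₀ hY])
  rw [this, mul_zero, ite_self]

theorem sm_finite (hW : Wt W M B) (m D : O) {Y : ℝ} (hY : 0 < Y) :
    (Function.support (sm W m D Y)).Finite :=
  (finite_N_le (M * Y)).subset (sm_support hW m D hY)

theorem sm_summable (hW : Wt W M B) (m D : O) {Y : ℝ} (hY : 0 < Y) : Summable (sm W m D Y) :=
  summable_of_hasFiniteSupport (sm_finite hW m D hY)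

theorem coprime_mul_prime {p a D : O} (hp : PrP p) :
    IsCoprime a (D * p) ↔ IsCoprime a D ∧ ¬ p ∣ a := by
  rw [IsCoprime.mul_right_iff, isCoprime_comm (x := a) (y := p), hp.2.coprime_iff_not_dvd]

theorem primary_mul_iff {p a : O} (hp : Primary p) : Primary (p * a) ↔ Primary a :=
  ⟨fun h => hp.of_mul h, fun h => hp.mul h⟩

theorem ok_mul_prime {p a D : O} (hp : PrP p) : ok (D * p) a ↔ ok D a ∧ ¬ p ∣ a := by
  rw [ok, ok, coprime_mul_prime hp, and_assoc]

theorem coprime_pow_mul {p a D : O} (hp : PrP p) (hD : ¬ p ∣ D) (n : ℕ) :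
    IsCoprime (p ^ n * a) D ↔ IsCoprime a D := by
  rw [IsCoprime.mul_left_iff]
  exact ⟨fun h => h.2, fun h => ⟨IsCoprime.pow_left (hp.coprime hD), h⟩⟩

theorem ok_pow_mul {p a D : O} (hp : PrP p) (hD : ¬ p ∣ D) (n : ℕ) :
    ok D (p ^ n * a) ↔ ok D a := by
  rw [ok, ok, coprime_pow_mul hp hD, primary_mul_iff (hp.1.pow n)]

/-- splitting off the multiples of `p` -/
theorem SA_split (hW : Wt W M B) {m D p : O} (hp : PrP p) {Y : ℝ} (hY : 0 < Y) :
    SA W m D Y = SA W m (D * p) Y + ∑' a : O, (open Classical in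
      if p ∣ a then sm W m D Y a else 0) := by
  classical
  have h1 : ∀ a, sm W m D Y a = sm W m (D * p) Y a + if p ∣ a then sm W m D Y a else 0 := by
    intro a
    by_cases h : p ∣ a
    · rw [if_pos h]
      have : sm W m (D * p) Y a = 0 := by
        rw [sm, if_neg]
        rw [ok_mul_prime hp]; tauto
      rw [this, zero_add]
    · rw [if_neg h, add_zero, sm, sm, ok_mul_prime hp]
      simp only [h, not_false_eq_true, and_true]
  have h2 : Summable (fun a => if p ∣ a then sm W m D Y a else 0) := by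
    apply summable_of_hasFiniteSupport
    apply (sm_finite hW m D hY).subset
    intro a ha
    simp only [Function.mem_support, ne_eq, ite_eq_right_iff, Classical.not_imp] at ha
    exact ha.2
  rw [SA, SA, ← (sm_summable hW m (D * p) hY).tsum_add h2]
  exact tsum_congr h1

/-- the multiples of `q` -/
theorem tsum_multiples {q : O} (hq : q ≠ 0) (f : O → ℂ) (hf : ∀ a, ¬ q ∣ a → f a = 0) :
    ∑' a : O, f a = ∑' a : O, f (q * a) := by
  refine (Function.Injective.tsum_eq (mul_right_injective₀ hq) ?_).symm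
  intro a ha
  by_contra h
  apply ha
  apply hf
  rintro ⟨b, rfl⟩
  exact h ⟨b, rfl⟩

theorem N_div (p a : O) (Y : ℝ) (n : ℕ) :
    ((N (p ^ n * a) : ℕ) : ℝ) / Y = N a / (Y / (N p : ℝ) ^ n) := by
  rw [N_mul, N_pow]
  push_cast
  rw [div_div_eq_mul_div]
  ring

/-- relation at `p ∤ s` -/
theorem SA_up (hW : Wt W M B) {s D p : O} (hp : PrP p) (hs : ¬ p ∣ s) (hD : ¬ p ∣ D)
    {Y : ℝ} (hY : 0 < Y) :
    SA W s D Y = SA W s (D * p) Y + gt s p * SA W (s * p) (D * p) (Y / N p) := by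
  classical
  rw [SA_split hW hp hY]
  congr 1
  rw [tsum_multiples hp.ne_zero _ (fun a ha => if_neg ha), SA, ← tsum_mul_left]
  refine tsum_congr fun a => ?_
  rw [if_pos (dvd_mul_right p a), sm, sm]
  have h1 := ok_pow_mul (a := a) hp hD 1
  have h2 := N_div p a Y 1
  rw [pow_one] at h1 h2
  rw [pow_one] at h2
  rw [h1, h2, ok_mul_prime hp]
  by_cases ha : ok D a
  · by_cases hpa : p ∣ a
    · rw [if_pos ha, if_neg (by tauto), gt_L0' hp hs ha.1 hpa]; ring
    · rw [if_pos ha, if_pos ⟨ha, hpa⟩, gt_L0 hp ha.1 hpa]; ring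
  · rw [if_neg ha, if_neg (by tauto)]; ring

/-- relation at `p ∥ s p` -/
theorem SA_down (hW : Wt W M B) {s D p : O} (hp : PrP p) (hs : ¬ p ∣ s) (hD : ¬ p ∣ D)
    {Y : ℝ} (hY : 0 < Y) :
    SA W (s * p) D Y = SA W (s * p) (D * p) Y +
      gt (s * p) (p ^ 2) * SA W s (D * p) (Y / (N p : ℝ) ^ 2) := by
  classical
  rw [SA_split hW hp hY]
  congr 1
  rw [tsum_multiples (pow_ne_zero 2 hp.ne_zero), SA, ← tsum_mul_left]
  · refine tsum_congr fun a => ?_
    rw [if_pos ((dvd_pow_self p two_ne_zero).mul_right a), sm, sm]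
    rw [ok_pow_mul (a := a) hp hD 2, N_div p a Y 2, ok_mul_prime hp]
    by_cases ha : ok D a
    · by_cases hpa : p ∣ a
      · rw [if_pos ha, if_neg (by tauto), gt_L2' hp hs ha.1 hpa]; ring
      · rw [if_pos ha, if_pos ⟨ha, hpa⟩, gt_L2 hp ha.1 hpa]; ring
    · rw [if_neg ha, if_neg (by tauto)]; ring
  · intro a ha
    by_cases h : p ∣ a
    · obtain ⟨b, rfl⟩ := h
      have hpb : ¬ p ∣ b := by
        rintro ⟨c, rfl⟩; exact ha ⟨c, by ring⟩
      rw [if_pos (dvd_mul_right p b), sm]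
      split_ifs with hc
      · rw [gt_L1 hp (hp.1.of_mul hc.1) hpb (dvd_mul_left p s), zero_mul]
      · rfl
    · rw [if_neg h]

/-- relation at `p² ∥ s p²` -/
theorem SA_sq (hW : Wt W M B) {s D p : O} (hp : PrP p) (hs : ¬ p ∣ s) (hD : ¬ p ∣ D)
    {Y : ℝ} (hY : 0 < Y) :
    SA W (s * p ^ 2) D Y = SA W (s * p ^ 2) (D * p) Y -
      √(N p : ℝ) * SA W (s * p ^ 2) (D * p) (Y / (N p : ℝ) ^ 3) := by
  classical
  rw [SA_split hW hp hY, sub_eq_add_neg, ← neg_mul]
  congr 1
  rw [tsum_multiples (pow_ne_zero 3 hp.ne_zero), SA, ← tsum_mul_left]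
  · refine tsum_congr fun a => ?_
    rw [if_pos ((dvd_pow_self p three_ne_zero).mul_right a), sm, sm]
    rw [ok_pow_mul (a := a) hp hD 3, N_div p a Y 3, ok_mul_prime hp]
    by_cases ha : ok D a
    · by_cases hpa : p ∣ a
      · rw [if_pos ha, if_neg (by tauto), gt_L5' hp hs ha.1 hpa]; ring
      · rw [if_pos ha, if_pos ⟨ha, hpa⟩, gt_L5 hp hs ha.1 hpa]; ring
    · rw [if_neg ha, if_neg (by tauto)]; ring
  · intro a ha
    by_cases h : p ∣ a
    · obtain ⟨b, rfl⟩ := h
      rw [if_pos (dvd_mul_right p b), sm]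
      split_ifs with hc
      · by_cases hpb : p ∣ b
        · obtain ⟨c, rfl⟩ := hpb
          have hpc : ¬ p ∣ c := by
            rintro ⟨d, rfl⟩; exact ha ⟨d, by ring⟩
          have hc1 : Primary c := hp.1.of_mul (hp.1.of_mul hc.1)
          rw [show p * (p * c) = p ^ 2 * c by ring, gt_L4 hp hc1 hpc, zero_mul]
        · rw [gt_L1 hp (hp.1.of_mul hc.1) hpb ((dvd_pow_self p two_ne_zero).mul_left s), zero_mul]
      · rfl
    · rw [if_neg h]

/-- cubes in the frequency do not matter -/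
theorem SA_cube (W : ℝ → ℂ) {s D p : O} (hp : PrP p) (Y : ℝ) :
    SA W (s * p ^ 3) (D * p) Y = SA W s (D * p) Y := by
  classical
  refine tsum_congr fun a => ?_
  rw [sm, sm, ok_mul_prime hp]
  by_cases h : ok D a ∧ ¬ p ∣ a
  · rw [if_pos h, if_pos h, gt_L6 hp h.1.1 h.2]
  · rw [if_neg h, if_neg h]

end Vale.Agent.P006.V2
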