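import Vale.Agent.P006.V2.Err

/-!
P006, block T1A: sums of `g̃(c)` over multiples of `r`.
-/

namespace Vale.Agent.P006.V2

open Vale.Agent.P006
open scoped BigOperators
open Filter Topology

variable {W : ℝ → ℂ} {M B : ℝ} {ρ : O → ℂ} {c : ℂ}

theorem gt_one_mul {r a : O} (hr : Primary r) (ha : Primary a) (h : IsCoprime r a) :
    gt 1 (r * a) = gt 1 r * gt r a := by
  rw [gt_mul_primary 1 hr ha h, gt_twist_one ha.ne_zero h]; ring

theorem gt_one_eq_zero {a : O} (ha : Primary a) (h : ¬ Squarefree a) : gt 1 a = 0 := by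
  rw [gt, gs_eq_zero_of_not_squarefree ha.ne_zero ha.not_lam_dvd isCoprime_one_left h, zero_div]

theorem not_squarefree_mul {r a : O} (hr : r ≠ 0) (h : ¬ IsCoprime r a) : ¬ Squarefree (r * a) := by
  intro hs
  apply h
  apply isCoprime_of_prime_dvd
  · rintro ⟨h1, -⟩; exact hr h1
  · intro p hp h1 h2
    exact hp.not_isUnit (hs p (mul_dvd_mul h1 h2))

theorem rho_eq (hρ : Rho ρ) : ∀ r, PP r → ρ r =
    (((N r : ℝ) ^ (-(1 / 6) : ℝ) : ℝ) : ℂ) * (starRingEnd ℂ) (gt 1 r) * ρ 1 := by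
  apply PP.induction
  · simp
  · intro r p hr hp hpr ih
    rw [hρ.mul_prime r p hr.1 hp hpr, ih, gt_one_mul hr.1 hp.1 (hp.coprime hpr).symm, N_mul,
      Nat.cast_mul, Real.mul_rpow (Nat.cast_nonneg _) (Nat.cast_nonneg _), map_mul,
      Complex.ofReal_mul]
    ring

theorem norm_gt_one {r : O} (hr : PP r) : ‖gt 1 r‖ = 1 := norm_gt hr.1 hr.2 isCoprime_one_left

theorem norm_rho_le (hρ : Rho ρ) {r : O} (hr : PP r) : ‖ρ r‖ ≤ ‖ρ 1‖ := by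
  rw [rho_eq hρ r hr, norm_mul, norm_mul, RCLike.norm_conj, norm_gt_one hr, mul_one,
    Complex.norm_real, Real.norm_of_nonneg (by positivity)]
  have h1 : (1 : ℝ) ≤ N r := hr.1.one_le_N'
  have h2 : (N r : ℝ) ^ (-(1 / 6) : ℝ) ≤ 1 := Real.rpow_le_one_of_one_le_of_nonpos h1 (by norm_num)
  nlinarith [norm_nonneg (ρ 1)]

/-- the sum of `g̃(c) W(N(c)/X)` over the primary multiples `c` of `r` -/
noncomputable def LA (W : ℝ → ℂ) (r : O) (X : ℝ) : ℂ :=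
  ∑' c : O, open Classical in if Primary c ∧ r ∣ c then gt 1 c * W (N c / X) else 0

theorem LA_eq (W : ℝ → ℂ) {r : O} (hr : PP r) (X : ℝ) :
    LA W r X = gt 1 r * SA W r r (X / N r) := by
  classical
  rw [LA, tsum_multiples hr.ne_zero _ (fun a ha => if_neg (fun h => ha h.2)), SA, ← tsum_mul_left]
  refine tsum_congr fun a => ?_
  rw [sm]
  have h1 : ((N (r * a) : ℕ) : ℝ) / X = N a / (X / N r) := by
    have := N_div r a X 1
    rwa [pow_one, pow_one] at this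
  rw [h1]
  by_cases ha : Primary a
  · by_cases hc : IsCoprime a r
    · rw [if_pos ⟨hr.1.mul ha, dvd_mul_right r a⟩, if_pos ⟨ha, hc⟩, gt_one_mul hr.1 ha hc.symm]
      ring
    · rw [if_pos ⟨hr.1.mul ha, dvd_mul_right r a⟩, if_neg (fun h => hc h.2),
        gt_one_eq_zero (hr.1.mul ha) (not_squarefree_mul hr.ne_zero (fun h => hc h.symm))]
      ring
  · rw [if_neg (fun h => ha (hr.1.of_mul h.1)), if_neg (fun h => ha h.1), mul_zero]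

/-- the difference between the sum over multiples of `r` and its main term -/
theorem LA_sub (hρ : Rho ρ) (c : ℂ) {r : O} (hr : PP r) {X : ℝ} (hX : 0 < X) :
    LA W r X - ρ 1 * (((N r : ℝ)⁻¹ * hfac r * X ^ (5 / 6 : ℝ) : ℝ) : ℂ) * c =
      gt 1 r * Er W ρ c r r (X / N r) := by
  have hN : (0 : ℝ) < N r := N_pos_real hr.ne_zero
  have h1 : (X / (N r : ℝ)) ^ (5 / 6 : ℝ) = X ^ (5 / 6 : ℝ) * (N r : ℝ) ^ (-(5 / 6) : ℝ) := by
    have := div_rpow_pow hX hN 1 (5 / 6)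
    rw [pow_one] at this
    rw [this]; norm_num
  have h2 : (N r : ℝ) ^ (-(1 / 6) : ℝ) * (N r : ℝ) ^ (-(5 / 6) : ℝ) = (N r : ℝ)⁻¹ := by
    rw [← Real.rpow_add hN]; norm_num [Real.rpow_neg_one]
  have h2' : (((N r : ℝ) ^ (-(1 / 6) : ℝ) : ℝ) : ℂ) * (((N r : ℝ) ^ (-(5 / 6) : ℝ) : ℝ) : ℂ) =
      (((N r : ℝ)⁻¹ : ℝ) : ℂ) := by rw [← Complex.ofReal_mul, h2]
  have h4 : gt 1 r * (starRingEnd ℂ) (gt 1 r) = 1 := by
    rw [Complex.mul_conj, Complex.normSq_eq_norm_sq, norm_gt_one hr]; simp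
  rw [LA_eq W hr, Er, mn, rho_eq hρ r hr, h1, mul_sub]
  rw [Complex.ofReal_mul ((N r : ℝ)⁻¹ * hfac r), Complex.ofReal_mul ((N r : ℝ)⁻¹),
    Complex.ofReal_mul (X ^ (5 / 6 : ℝ))]
  set u := (((N r : ℝ) ^ (-(1 / 6) : ℝ) : ℝ) : ℂ)
  set v := (((N r : ℝ) ^ (-(5 / 6) : ℝ) : ℝ) : ℂ)
  set y := ((X ^ (5 / 6 : ℝ) : ℝ) : ℂ)
  set h := ((hfac r : ℝ) : ℂ)
  linear_combination (ρ 1 * h * y * c * u * v) * h4 + (ρ 1 * h * y * c) * h2'

theorem norm_LA_sub (hρ : Rho ρ) (c : ℂ) {r : O} (hr : PP r) {X : ℝ} (hX : 0 < X) :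
    ‖LA W r X - ρ 1 * (((N r : ℝ)⁻¹ * hfac r * X ^ (5 / 6 : ℝ) : ℝ) : ℂ) * c‖ =
      ‖Er W ρ c r r (X / N r)‖ := by
  rw [LA_sub hρ c hr hX, norm_mul, norm_gt_one hr, one_mul]

/-- the error term of the sum over multiples of `r` -/
noncomputable def LE (W : ℝ → ℂ) (ρ : O → ℂ) (c : ℂ) (r : O) (X : ℝ) : ℝ :=
  ‖LA W r X - ρ 1 * (((N r : ℝ)⁻¹ * hfac r * X ^ (5 / 6 : ℝ) : ℝ) : ℂ) * c‖

/-- **TI-1, dyadic form**: `r` runs over squarefree primary elements with `R/2 ≤ N(r) ≤ R`,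
the total length `X` is fixed. -/
theorem LE_dyadic {α η : ℝ} (hα : 1 < α) (hη : 0 < η) : ∃ C : ℝ, 0 ≤ C ∧
    ∀ (W : ℝ → ℂ) (M B : ℝ) (ρ : O → ℂ) (c : ℂ), Wt W M B → Rho ρ →
    ∀ K1 K2 : ℝ, 0 ≤ K1 → 0 ≤ K2 →
      MSBound (fun m D Y => ‖Er W ρ c m D Y‖) (fun _ => 1) K1 K2 α η →
    ∀ (R X : ℝ), 1 ≤ R → 0 < X → ∀ S : Finset O,
      (∀ r ∈ S, PP r ∧ R / 2 ≤ (N r : ℝ) ∧ (N r : ℝ) ≤ R) →
      ∑ r ∈ S, LE W ρ c r X ^ 2 ≤ C * ((K1 * R + K2) * R ^ (2 * η) * (X / R) ^ α) := by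
  obtain ⟨C, hC0, hC⟩ := meanSq hα hη
  refine ⟨C, hC0, ?_⟩
  intro W M B ρ c hW hρ K1 K2 hK1 hK2 hms R X hR hX S hS
  have h := hC _ (Er_rec hW hρ c) K1 K2 hK1 hK2 hms R (X / R) hR (by positivity) S
    (fun r => X / N r) (fun m hm => ⟨(hS m hm).1, (hS m hm).2.2⟩) (by
      intro m hm
      have hm0 : (0 : ℝ) < N m := N_pos_real (hS m hm).1.ne_zero
      have h1 := (hS m hm).2.1
      have h2 := (hS m hm).2.2
      constructor
      · exact div_le_div_of_nonneg_left hX.le hm0 h2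
      · rw [div_le_iff₀ hm0, mul_comm 2, mul_assoc]
        have : X = X / R * R := by field_simp
        nth_rewrite 1 [this]
        apply mul_le_mul_of_nonneg_left _ (by positivity)
        linarith)
  have h2 : ∑ r ∈ S, LE W ρ c r X ^ 2 = ∑ r ∈ S, ‖Er W ρ c r (id r) (X / N r)‖ ^ 2 := by
    refine Finset.sum_congr rfl fun r hr => ?_
    rw [LE, norm_LA_sub hρ c (hS r hr).1 hX, id]
  rw [h2]
  refine h.trans (le_of_eq ?_)
  ring

end Vale.Agent.P006.V2
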